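import Mathlib

/-!
First passage percolation on the square lattice.
-/

open MeasureTheory

namespace Vale.Agent.P158

/-- Nearest neighbours in the square lattice. -/
def Nbr (u v : ℤ × ℤ) : Prop := |u.1 - v.1| + |u.2 - v.2| = 1

/-- The costs of the finite nearest neighbour paths from `x` to `y`. -/
def costs (t : Sym2 (ℤ × ℤ) → ℝ) (x y : ℤ × ℤ) : Set ℝ :=
  {r | ∃ (m : ℕ) (f : ℕ → ℤ × ℤ), f 0 = x ∧ f m = y ∧ (∀ i < m, Nbr (f i) (f (i + 1))) ∧
    r = ∑ i ∈ Finset.range m, t s(f i, f (i + 1))}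

/-- The passage time. -/
noncomputable def passage (t : Sym2 (ℤ × ℤ) → ℝ) (x y : ℤ × ℤ) : ℝ := sInf (costs t x y)

/-- A geodesic ray. -/
def IsRay (t : Sym2 (ℤ × ℤ) → ℝ) (v : ℕ → ℤ × ℤ) : Prop :=
  Function.Injective v ∧ (∀ i, Nbr (v i) (v (i + 1))) ∧
    ∀ i j, i < j → ∑ k ∈ Finset.Ico i j, t s(v k, v (k + 1)) = passage t (v i) (v j)

/-- A bigeodesic. -/
def IsBigeodesic (t : Sym2 (ℤ × ℤ) → ℝ) (v : ℤ → ℤ × ℤ) : Prop :=
  Function.Injective v ∧ (∀ i, Nbr (v i) (v (i + 1))) ∧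
    ∀ i j, i < j → ∑ k ∈ Finset.Ico i j, t s(v k, v (k + 1)) = passage t (v i) (v j)

/-- The sequence stays within bounded distance of some straight line. -/
def InStrip {ι : Type*} (v : ι → ℤ × ℤ) : Prop :=
  ∃ a b C : ℝ, (a, b) ≠ (0, 0) ∧ ∀ i, |a * ((v i).1 : ℝ) + b * ((v i).2 : ℝ)| ≤ C

/-- The weights are independent with common law `G`. -/
noncomputable def weightMeasure (G : Measure ℝ) : Measure (Sym2 (ℤ × ℤ) → ℝ) :=
  Measure.infinitePi fun _ => G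

end Vale.Agent.P158
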