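import Vale.Agent.P158.Defs

/-!
The deterministic detour: a good window cannot be crossed by a geodesic inside the strip.
-/

open Finset

namespace Vale.Agent.P158

variable {t : Sym2 (ℤ × ℤ) → ℝ}

lemma Nbr.symm {u v : ℤ × ℤ} (h : Nbr u v) : Nbr v u := by
  unfold Nbr at *; rw [abs_sub_comm v.1, abs_sub_comm v.2]; exact h

/-- There is a path of cost at most `r`. -/
def Conn (t : Sym2 (ℤ × ℤ) → ℝ) (x y : ℤ × ℤ) (r : ℝ) : Prop := ∃ s ∈ costs t x y, s ≤ r

lemma conn_refl (x : ℤ × ℤ) : Conn t x x 0 :=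
  ⟨0, ⟨0, fun _ => x, rfl, rfl, fun i hi => absurd hi (Nat.not_lt_zero i), by simp⟩, le_rfl⟩

lemma conn_step {x y z : ℤ × ℤ} {r c : ℝ} (h : Conn t x y r) (hn : Nbr y z) (hc : t s(y, z) ≤ c) :
    Conn t x z (r + c) := by
  obtain ⟨s, ⟨m, f, h0, hm, hstep, rfl⟩, hs⟩ := h
  set g : ℕ → ℤ × ℤ := fun i => if i ≤ m then f i else z
  refine ⟨_, ⟨m + 1, g, ?_, ?_, ?_, rfl⟩, ?_⟩
  · simp [g, h0]
  · simp [g]
  · intro i hi
    by_cases h : i < m
    · simp [g, h.le, Nat.succ_le_of_lt h, hstep i h]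
    · obtain rfl : i = m := by omega
      simp [g, hm, hn]
  · rw [sum_range_succ]
    have e : ∑ i ∈ range m, t s(g i, g (i + 1)) = ∑ i ∈ range m, t s(f i, f (i + 1)) :=
      sum_congr rfl fun i hi => by
        have := mem_range.1 hi
        simp [g, this.le, Nat.succ_le_of_lt this]
    rw [e]
    have : t s(g m, g (m + 1)) = t s(y, z) := by simp [g, hm]
    linarith

lemma conn_symm {x y : ℤ × ℤ} {r : ℝ} (h : Conn t x y r) : Conn t y x r := by
  obtain ⟨s, ⟨m, f, h0, hm, hstep, rfl⟩, hs⟩ := h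
  refine ⟨_, ⟨m, fun i => f (m - i), by simp [hm], by simp [h0], ?_, rfl⟩, ?_⟩
  · intro i hi
    have e : m - i = m - (i + 1) + 1 := by omega
    dsimp only
    rw [e]
    exact (hstep _ (by omega)).symm
  · refine le_trans (le_of_eq ?_) hs
    rw [← sum_range_reflect]
    refine sum_congr rfl fun i hi => ?_
    have := mem_range.1 hi
    have e1 : m - (m - 1 - i) = i + 1 := by omega
    have e2 : m - (m - 1 - i + 1) = i := by omega
    dsimp only
    rw [e1, e2, Sym2.eq_swap]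

lemma conn_trans {x y z : ℤ × ℤ} {r r' : ℝ} (h : Conn t x y r) (h' : Conn t y z r') :
    Conn t x z (r + r') := by
  obtain ⟨s, ⟨m, f, h0, hm, hstep, rfl⟩, hs⟩ := h'
  have key : ∀ k, k ≤ m → Conn t x (f k) (r + ∑ i ∈ range k, t s(f i, f (i + 1))) := by
    intro k hk
    induction k with
    | zero => simpa [h0] using h
    | succ k ih =>
      rw [sum_range_succ, ← add_assoc]
      exact conn_step (ih (by omega)) (hstep k (by omega)) le_rfl
  obtain ⟨q, hq, hqs⟩ := key m le_rfl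
  exact ⟨q, hm ▸ hq, by linarith⟩

lemma passage_le (hpos : ∀ e, 0 ≤ t e) {x y : ℤ × ℤ} {r : ℝ} (h : Conn t x y r) :
    passage t x y ≤ r := by
  obtain ⟨s, hs, hsr⟩ := h
  refine (csInf_le ⟨0, ?_⟩ hs).trans hsr
  rintro q ⟨m, f, -, -, -, rfl⟩
  exact sum_nonneg fun i _ => hpos _

lemma conn_vertical (x : ℤ) (y : ℤ) (n : ℕ) {c : ℝ}
    (hc : ∀ i : ℕ, i < n → t s((x, y + i), (x, y + i + 1)) ≤ c) :
    Conn t (x, y) (x, y + n) (n * c) := by
  induction n with
  | zero => simpa using conn_refl (t := t) (x, y)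
  | succ n ih =>
    have h := conn_step (z := (x, y + n + 1)) (ih fun i hi => hc i (by omega)) (by simp [Nbr]) (hc n (by omega))
    have e : y + ((n + 1 : ℕ) : ℤ) = y + n + 1 := by push_cast; ring
    rw [e]
    convert h using 1
    push_cast; ring

/-- A window of the strip around the profile `g`. -/
noncomputable def window (g : ℤ → ℤ) (W : ℕ) (X₀ X₁ : ℤ) : Finset (ℤ × ℤ) :=
  (Icc X₀ X₁).biUnion fun x => (Icc (g x - W - 1) (g x + W + 2)).image fun y => (x, y)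

lemma mem_window {g : ℤ → ℤ} {W : ℕ} {X₀ X₁ : ℤ} {p : ℤ × ℤ} :
    p ∈ window g W X₀ X₁ ↔ X₀ ≤ p.1 ∧ p.1 ≤ X₁ ∧ g p.1 - W - 1 ≤ p.2 ∧ p.2 ≤ g p.1 + W + 2 := by
  obtain ⟨a, b⟩ := p
  simp only [window, mem_biUnion, mem_image, mem_Icc, Prod.mk.injEq]
  constructor
  · rintro ⟨x, hx, y, hy, rfl, rfl⟩; omega
  · rintro ⟨h1, h2, h3, h4⟩; exact ⟨a, ⟨h1, h2⟩, b, ⟨h3, h4⟩, rfl, rfl⟩

/-- Vertices of the strip. -/
def inBox (g : ℤ → ℤ) (W : ℕ) (p : ℤ × ℤ) : Prop := |p.2 - g p.1| ≤ W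

/-- The lattice edges of a window. -/
noncomputable def windowEdges (g : ℤ → ℤ) (W : ℕ) (X₀ X₁ : ℤ) : Finset (Sym2 (ℤ × ℤ)) :=
  open scoped Classical in
  ((window g W X₀ X₁ ×ˢ window g W X₀ X₁).filter fun e => Nbr e.1 e.2).image fun e => s(e.1, e.2)

lemma mem_windowEdges {g : ℤ → ℤ} {W : ℕ} {X₀ X₁ : ℤ} {p q : ℤ × ℤ}
    (hp : p ∈ window g W X₀ X₁) (hq : q ∈ window g W X₀ X₁) (h : Nbr p q) :
    s(p, q) ∈ windowEdges g W X₀ X₁ := by
  classical
  exact mem_image.2 ⟨(p, q), mem_filter.2 ⟨mem_product.2 ⟨hp, hq⟩, h⟩, rfl⟩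

/-- The values demanded from an edge of a window. -/
noncomputable def demand (g : ℤ → ℤ) (W : ℕ) (α β M : ℝ) (e : Sym2 (ℤ × ℤ)) : Set ℝ :=
  open scoped Classical in if ∀ p ∈ e, inBox g W p then Set.Icc β M else Set.Iic α

/-- A window where the strip is expensive and its boundary cheap. -/
def GoodWindow (t : Sym2 (ℤ × ℤ) → ℝ) (g : ℤ → ℤ) (W : ℕ) (X₀ X₁ : ℤ) (α β M : ℝ) : Prop :=
  ∀ e ∈ windowEdges g W X₀ X₁, t e ∈ demand g W α β M e

/-- A monotone profile with slope at most one. -/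
def Profile (g : ℤ → ℤ) : Prop :=
  ((∀ x, g x ≤ g (x + 1)) ∨ ∀ x, g (x + 1) ≤ g x) ∧ ∀ x, |g (x + 1) - g x| ≤ 1

/-- A good window is not crossed by a geodesic inside the strip. -/
theorem no_crossing (hpos : ∀ e, 0 ≤ t e) {g : ℤ → ℤ} (hg : Profile g) {W : ℕ} {X₀ : ℤ} {L : ℕ}
    {α β M : ℝ} (hα : 0 ≤ α) (hαβ : α ≤ β) (hβM : β ≤ M)
    (hL : (4 * (W : ℝ) + 4) * M + 2 * W * α < (β - α) * L)
    (hgood : GoodWindow t g W X₀ (X₀ + L) α β M)
    {v : ℕ → ℤ × ℤ} (hv : IsRay t v)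
    (hstrip' : ∀ i, X₀ ≤ (v i).1 → (v i).1 ≤ X₀ + L → inBox g W (v i))
    (h0 : (v 0).1 ≤ X₀) (hreach : ∃ i, X₀ + L ≤ (v i).1) : False := by
  classical
  obtain ⟨-, hnbr, hgeo⟩ := hv
  set X₁ := X₀ + (L : ℤ) with hX₁
  have hLpos : (0 : ℝ) < L := by
    by_contra h
    push Not at h
    have : (L : ℝ) = 0 := le_antisymm h (Nat.cast_nonneg _)
    rw [this, mul_zero] at hL
    nlinarith [Nat.cast_nonneg (α := ℝ) W]
  have hX : X₀ < X₁ := by
    have : 0 < L := Nat.cast_pos.1 hLpos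
    omega
  have hstep : ∀ i, |(v i).1 - (v (i + 1)).1| ≤ 1 := fun i => by
    have := hnbr i
    unfold Nbr at this
    linarith [abs_nonneg ((v i).2 - (v (i + 1)).2)]
  set j := Nat.find hreach with hj
  have hj1 : X₁ ≤ (v j).1 := Nat.find_spec hreach
  have hjlt : ∀ i < j, (v i).1 < X₁ := fun i hi => not_le.1 (Nat.find_min hreach hi)
  have hj0 : j ≠ 0 := fun h => by rw [h] at hj1; omega
  have hj' : (v j).1 = X₁ := by
    have h1 := hjlt (j - 1) (by omega)
    have h2 := hstep (j - 1)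
    rw [show j - 1 + 1 = j by omega] at h2
    have := abs_le.1 h2
    omega
  set S := (range (j + 1)).filter fun i => (v i).1 ≤ X₀ with hS
  have hSne : S.Nonempty := ⟨0, mem_filter.2 ⟨mem_range.2 (by omega), h0⟩⟩
  set i₀ := S.max' hSne with hi₀
  obtain ⟨hi₀r, hi₀x⟩ := mem_filter.1 (S.max'_mem hSne)
  have hi₀j : i₀ < j := by
    have h1 := mem_range.1 hi₀r
    rcases eq_or_lt_of_le (Nat.lt_succ_iff.1 h1) with h | h
    · exfalso; rw [← hi₀] at hi₀x; change i₀ = j at h; rw [h, hj'] at hi₀x; omega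
    · exact h
  have hafter : ∀ i, i₀ < i → i ≤ j → X₀ < (v i).1 := by
    intro i h1 h2
    by_contra h
    push Not at h
    have := S.le_max' i (mem_filter.2 ⟨mem_range.2 (by omega), h⟩)
    omega
  have hi₀' : (v i₀).1 = X₀ := by
    have h1 := hafter (i₀ + 1) (by omega) (by omega)
    have h2 := abs_le.1 (hstep i₀)
    rw [← hi₀] at hi₀x
    omega
  have hin : ∀ i, i₀ ≤ i → i ≤ j → X₀ ≤ (v i).1 ∧ (v i).1 ≤ X₁ := by
    intro i h1 h2
    constructor
    · rcases eq_or_lt_of_le h1 with h | h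
      · rw [← h, hi₀']
      · exact (hafter i h h2).le
    · rcases eq_or_lt_of_le h2 with h | h
      · rw [h, hj']
      · exact (hjlt i h).le
  have hstrip : ∀ i, i₀ ≤ i → i ≤ j → inBox g W (v i) := fun i h1 h2 =>
    hstrip' i (hin i h1 h2).1 (hin i h1 h2).2
  have hwin : ∀ i, i₀ ≤ i → i ≤ j → v i ∈ window g W X₀ X₁ := by
    intro i h1 h2
    have := abs_le.1 (hstrip i h1 h2)
    obtain ⟨a, b⟩ := hin i h1 h2
    exact mem_window.2 ⟨a, b, by omega, by omega⟩
  -- the cost of the crossing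
  have hlow : β * ((j : ℝ) - i₀) ≤ ∑ k ∈ Ico i₀ j, t s(v k, v (k + 1)) := by
    refine le_trans (le_of_eq ?_) (card_nsmul_le_sum _ _ β fun k hk => ?_)
    · rw [Nat.card_Ico, nsmul_eq_mul, Nat.cast_sub hi₀j.le]; ring
    · obtain ⟨h1, h2⟩ := mem_Ico.1 hk
      have h := hgood _ (mem_windowEdges (hwin k h1 h2.le) (hwin (k + 1) (by omega) (by omega)) (hnbr k))
      rw [demand, if_pos] at h
      · exact h.1
      · intro p hp
        rcases Sym2.mem_iff.1 hp with rfl | rfl <;> exact hstrip _ (by omega) (by omega)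
  have hlen : |(v j).1 - (v i₀).1| + |(v j).2 - (v i₀).2| ≤ ((j - i₀ : ℕ) : ℤ) := by
    have key : ∀ m, |(v (i₀ + m)).1 - (v i₀).1| + |(v (i₀ + m)).2 - (v i₀).2| ≤ (m : ℤ) := by
      intro m
      induction m with
      | zero => simp
      | succ m ih =>
        have h := hnbr (i₀ + m)
        unfold Nbr at h
        have a1 := abs_sub_le (v (i₀ + (m + 1))).1 (v (i₀ + m)).1 (v i₀).1
        have a2 := abs_sub_le (v (i₀ + (m + 1))).2 (v (i₀ + m)).2 (v i₀).2
        rw [← add_assoc] at a1 a2 ⊢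
        rw [abs_sub_comm] at h
        rw [abs_sub_comm (v (i₀ + m)).2] at h
        push_cast
        linarith
    have := key (j - i₀)
    rwa [Nat.add_sub_cancel' hi₀j.le] at this
  -- the detour
  have hedge : ∀ p q : ℤ × ℤ, p ∈ window g W X₀ X₁ → q ∈ window g W X₀ X₁ → Nbr p q →
      t s(p, q) ≤ M := by
    intro p q hp hq h
    have := hgood _ (mem_windowEdges hp hq h)
    unfold demand at this
    split at this
    · exact this.2
    · exact (Set.mem_Iic.1 this).trans (hαβ.trans hβM)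
  have hout : ∀ p q : ℤ × ℤ, p ∈ window g W X₀ X₁ → q ∈ window g W X₀ X₁ → Nbr p q →
      ¬ inBox g W q → t s(p, q) ≤ α := by
    intro p q hp hq h hb
    have := hgood _ (mem_windowEdges hp hq h)
    rwa [demand, if_neg fun h' => hb (h' q (Sym2.mem_mk_right p q))] at this
  set ht : ℤ → ℤ := fun x => g x + W + 1 with hht
  have hpar : ∀ m : ℕ, X₀ + m ≤ X₁ →
      Conn t (X₀, ht X₀) (X₀ + m, ht (X₀ + m)) (α * (m + |((g (X₀ + m) - g X₀ : ℤ) : ℝ)|)) := by
    intro m hm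
    have main : ∀ m : ℕ, X₀ + m ≤ X₁ → Conn t (X₀, ht X₀) (X₀ + m, ht (X₀ + m))
        (α * ∑ i ∈ range m, (1 + |((g (X₀ + i + 1) - g (X₀ + i) : ℤ) : ℝ)|)) := by
      intro m hm
      induction m with
      | zero => simpa using conn_refl (t := t) (X₀, ht X₀)
      | succ m ih =>
        rw [sum_range_succ, mul_add]
        have e : X₀ + ((m + 1 : ℕ) : ℤ) = X₀ + m + 1 := by push_cast; ring
        rw [e]
        have hm' : X₀ + (m : ℤ) + 1 ≤ X₁ := by omega
        have h1 := ih (by omega)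
        have hl := abs_le.1 (hg.2 (X₀ + m))
        have hA : (X₀ + (m : ℤ), ht (X₀ + m)) ∈ window g W X₀ X₁ := by
          rw [mem_window]; simp only [hht]; omega
        have hC : (X₀ + (m : ℤ) + 1, ht (X₀ + m + 1)) ∈ window g W X₀ X₁ := by
          rw [mem_window]; simp only [hht]; omega
        have hCb : ¬ inBox g W (X₀ + (m : ℤ) + 1, ht (X₀ + m + 1)) := by
          simp only [inBox, hht]; rw [abs_le]; omega
        have hAb : ¬ inBox g W (X₀ + (m : ℤ), ht (X₀ + m)) := by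
          simp only [inBox, hht]; rw [abs_le]; omega
        have hB : (X₀ + (m : ℤ) + 1, ht (X₀ + m)) ∈ window g W X₀ X₁ := by
          rw [mem_window]; simp only [hht]; omega
        have hn1 : Nbr (X₀ + (m : ℤ), ht (X₀ + m)) (X₀ + (m : ℤ) + 1, ht (X₀ + m)) := by
          simp [Nbr]
        have c1 : t s((X₀ + (m : ℤ), ht (X₀ + m)), (X₀ + (m : ℤ) + 1, ht (X₀ + m))) ≤ α := by
          rw [Sym2.eq_swap]; exact hout _ _ hB hA hn1.symm hAb
        have h2 := conn_step h1 hn1 c1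
        by_cases he : g (X₀ + m + 1) = g (X₀ + m)
        · rw [he, sub_self, Int.cast_zero, abs_zero, add_zero, mul_one]
          have : ht (X₀ + m + 1) = ht (X₀ + m) := by simp [hht, he]
          rw [this]; exact h2
        · have hn2 : Nbr (X₀ + (m : ℤ) + 1, ht (X₀ + m)) (X₀ + (m : ℤ) + 1, ht (X₀ + m + 1)) := by
            unfold Nbr
            simp only [hht, sub_self, abs_zero, zero_add]
            rw [abs_eq (by norm_num : (0 : ℤ) ≤ 1)]; omega
          have h3 := conn_step h2 hn2 (hout _ _ hB hC hn2 hCb)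
          have habs : |((g (X₀ + m + 1) - g (X₀ + m) : ℤ) : ℝ)| = 1 := by
            have : |g (X₀ + m + 1) - g (X₀ + m)| = 1 := by
              rw [abs_eq (by norm_num : (0 : ℤ) ≤ 1)]; omega
            rw [← Int.cast_abs, this, Int.cast_one]
          rw [habs]
          convert h3 using 1
          ring
    have h := main m hm
    convert h using 2
    rw [sum_add_distrib, sum_const, card_range, nsmul_eq_mul, mul_one]
    congr 1
    have hsum : ∑ i ∈ range m, (g (X₀ + i + 1) - g (X₀ + i)) = g (X₀ + m) - g X₀ := by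
      have := sum_range_sub (fun i : ℕ => g (X₀ + i)) m
      simp only [Nat.cast_add, Nat.cast_one, Nat.cast_zero, add_zero] at this
      simpa [add_assoc] using this
    rcases hg.1 with hmon | hmon
    · have h0' : ∀ i ∈ range m, (0 : ℝ) ≤ ((g (X₀ + i + 1) - g (X₀ + i) : ℤ) : ℝ) := fun i _ => by
        exact_mod_cast sub_nonneg.2 (hmon (X₀ + i))
      rw [sum_congr rfl fun i hi => abs_of_nonneg (h0' i hi), ← Int.cast_sum, hsum, abs_of_nonneg]
      rw [← hsum, Int.cast_sum]; exact sum_nonneg h0'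
    · have h0' : ∀ i ∈ range m, ((g (X₀ + i + 1) - g (X₀ + i) : ℤ) : ℝ) ≤ 0 := fun i _ => by
        exact_mod_cast sub_nonpos.2 (hmon (X₀ + i))
      rw [sum_congr rfl fun i hi => abs_of_nonpos (h0' i hi), sum_neg_distrib, ← Int.cast_sum, hsum,
        abs_of_nonpos]
      rw [← hsum, Int.cast_sum]; exact sum_nonpos h0'
  have hend : ∀ i, i₀ ≤ i → i ≤ j → (v i).1 = X₀ ∨ (v i).1 = X₁ →
      Conn t (v i) ((v i).1, ht (v i).1) ((2 * (W : ℝ) + 1) * M) := by
    intro i h1 h2 _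
    obtain ⟨a, b⟩ := hin i h1 h2
    obtain ⟨c, d⟩ := abs_le.1 (hstrip i h1 h2)
    set n := (ht (v i).1 - (v i).2).toNat with hn
    have hnW : (n : ℝ) ≤ 2 * W + 1 := by
      have : (n : ℤ) ≤ 2 * W + 1 := by simp only [hn, hht]; omega
      exact_mod_cast this
    have key := conn_vertical (t := t) (v i).1 (v i).2 n (c := M) fun k hk => by
      refine hedge _ _ ?_ ?_ (by simp [Nbr]) <;>
        (rw [mem_window]; simp only [hn, hht] at hk ⊢; omega)
    rw [show (v i).2 + (n : ℤ) = ht (v i).1 by simp only [hn, hht]; omega] at key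
    obtain ⟨s, hs1, hs2⟩ := key
    exact ⟨s, hs1, hs2.trans (mul_le_mul_of_nonneg_right hnW (by linarith))⟩
  have hA := hend i₀ le_rfl hi₀j.le (Or.inl hi₀')
  have hB := conn_symm (hend j hi₀j.le le_rfl (Or.inr hj'))
  have hP := hpar L (le_refl _)
  rw [hi₀'] at hA
  rw [hj'] at hB
  have htot := conn_trans (conn_trans hA hP) hB
  have hT := passage_le hpos htot
  rw [← hgeo i₀ j hi₀j] at hT
  have hgap : |((g (X₀ + L) - g X₀ : ℤ) : ℝ)| ≤ |(((v j).2 - (v i₀).2 : ℤ) : ℝ)| + 2 * W := by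
    obtain ⟨c, d⟩ := abs_le.1 (hstrip i₀ le_rfl hi₀j.le)
    obtain ⟨c', d'⟩ := abs_le.1 (hstrip j hi₀j.le le_rfl)
    rw [hi₀'] at c d
    rw [hj', hX₁] at c' d'
    have : |g (X₀ + L) - g X₀| ≤ |(v j).2 - (v i₀).2| + 2 * W := by
      rw [abs_le]
      constructor <;> nlinarith [le_abs_self ((v j).2 - (v i₀).2), neg_abs_le ((v j).2 - (v i₀).2)]
    exact_mod_cast this
  have hlenR : (L : ℝ) + |(((v j).2 - (v i₀).2 : ℤ) : ℝ)| ≤ (j : ℝ) - i₀ := by
    rw [hj', hi₀', hX₁, add_sub_cancel_left, abs_of_nonneg (Int.natCast_nonneg L)] at hlen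
    have h' : ((((L : ℤ) + |(v j).2 - (v i₀).2| : ℤ)) : ℝ) ≤ (((j - i₀ : ℕ) : ℤ) : ℝ) :=
      Int.cast_le.2 hlen
    rw [Int.cast_natCast, Nat.cast_sub hi₀j.le] at h'
    push_cast at h' ⊢
    exact h'
  set D := |(((v j).2 - (v i₀).2 : ℤ) : ℝ)| with hD
  have hD0 : 0 ≤ D := abs_nonneg _
  have hW0 : (0 : ℝ) ≤ W := Nat.cast_nonneg W
  have e1 : β * (L + D) ≤ β * ((j : ℝ) - i₀) :=
    mul_le_mul_of_nonneg_left hlenR (hα.trans hαβ)
  have e2 := mul_le_mul_of_nonneg_left hgap hα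
  have e3 := mul_le_mul_of_nonneg_right (sub_nonneg.2 hαβ) hD0
  have hM : 0 ≤ M := hα.trans (hαβ.trans hβM)
  have e4 := mul_nonneg hW0 hM
  linarith

end Vale.Agent.P158
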