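import Vale.Agent.P158.Shift

/-!
Bigeodesics as a measurable event: by compactness a bigeodesic through a vertex exists exactly
when geodesic windows of every radius exist around it. Consequently the existence of a bigeodesic
has probability zero or one.
-/

open MeasureTheory Finset

namespace Vale.Agent.P158

variable {t : Sym2 (ℤ × ℤ) → ℝ}

/-- `w` is a geodesic on `[-n, n]`. -/
def Window (t : Sym2 (ℤ × ℤ) → ℝ) (w : ℤ → ℤ × ℤ) (n : ℕ) : Prop :=
  (∀ i ∈ Icc (-(n : ℤ)) n, ∀ j ∈ Icc (-(n : ℤ)) n, w i = w j → i = j) ∧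
    (∀ i ∈ Ico (-(n : ℤ)) n, Nbr (w i) (w (i + 1))) ∧
    ∀ i ∈ Icc (-(n : ℤ)) n, ∀ j ∈ Icc (-(n : ℤ)) n, i < j →
      ∑ k ∈ Ico i j, t s(w k, w (k + 1)) = passage t (w i) (w j)

lemma IsBigeodesic.window {w : ℤ → ℤ × ℤ} (h : IsBigeodesic t w) (n : ℕ) : Window t w n :=
  ⟨fun _ _ _ _ he => h.1 he, fun i _ => h.2.1 i, fun i _ j _ hij => h.2.2 i j hij⟩

lemma Window.congr {w w' : ℤ → ℤ × ℤ} {n : ℕ} (h : Window t w n)
    (e : ∀ i ∈ Icc (-(n : ℤ)) n, w i = w' i) : Window t w' n := by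
  obtain ⟨h1, h2, h3⟩ := h
  refine ⟨fun i hi j hj he => h1 i hi j hj (by rw [e i hi, e j hj, he]), fun i hi => ?_,
    fun i hi j hj hij => ?_⟩
  · have hi' := mem_Ico.1 hi
    rw [← e i (mem_Icc.2 ⟨hi'.1, by omega⟩), ← e (i + 1) (mem_Icc.2 ⟨by omega, by omega⟩)]
    exact h2 i hi
  · rw [← e i hi, ← e j hj, ← h3 i hi j hj hij]
    refine sum_congr rfl fun k hk => ?_
    have hk' := mem_Ico.1 hk
    have hi' := mem_Icc.1 hi
    have hj' := mem_Icc.1 hj
    rw [e k (mem_Icc.2 ⟨by omega, by omega⟩), e (k + 1) (mem_Icc.2 ⟨by omega, by omega⟩)]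

lemma Window.mono {w : ℤ → ℤ × ℤ} {n k : ℕ} (h : Window t w n) (hk : k ≤ n) : Window t w k := by
  obtain ⟨h1, h2, h3⟩ := h
  have sub : ∀ i, i ∈ Icc (-(k : ℤ)) k → i ∈ Icc (-(n : ℤ)) n := fun i hi => by
    simp only [mem_Icc] at hi ⊢; omega
  exact ⟨fun i hi j hj => h1 i (sub i hi) j (sub j hj), fun i hi => h2 i (by
    simp only [mem_Ico] at hi ⊢; omega), fun i hi j hj => h3 i (sub i hi) j (sub j hj)⟩

lemma Window.dist_le {w : ℤ → ℤ × ℤ} {n : ℕ} (h : Window t w n) :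
    ∀ i ∈ Icc (-(n : ℤ)) n, |(w i).1 - (w 0).1| + |(w i).2 - (w 0).2| ≤ |i| := by
  have step : ∀ k : ℕ, k ≤ n → (|(w k).1 - (w 0).1| + |(w k).2 - (w 0).2| ≤ (k : ℤ)) ∧
      (|(w (-k)).1 - (w 0).1| + |(w (-k)).2 - (w 0).2| ≤ (k : ℤ)) := by
    intro k
    induction k with
    | zero => intro _; simp
    | succ k ih =>
      intro hk
      obtain ⟨a, b⟩ := ih (by omega)
      have p := h.2.1 k (mem_Ico.2 ⟨by omega, by omega⟩)
      have q := h.2.1 (-((k + 1 : ℕ) : ℤ)) (mem_Ico.2 ⟨by omega, by omega⟩)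
      have e : -((k + 1 : ℕ) : ℤ) + 1 = -(k : ℤ) := by omega
      rw [e] at q
      unfold Nbr at p q
      have c1 := abs_sub_le (w (↑k + 1)).1 (w k).1 (w 0).1
      have c2 := abs_sub_le (w (↑k + 1)).2 (w k).2 (w 0).2
      have c3 := abs_sub_le (w (-((k + 1 : ℕ) : ℤ))).1 (w (-k)).1 (w 0).1
      have c4 := abs_sub_le (w (-((k + 1 : ℕ) : ℤ))).2 (w (-k)).2 (w 0).2
      rw [abs_sub_comm (w k).1] at p
      rw [abs_sub_comm (w k).2] at p
      push_cast at *
      constructor <;> omega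
  intro i hi
  rw [mem_Icc] at hi
  rcases Int.natAbs_eq i with e | e <;> rw [e]
  · simpa using (step i.natAbs (by omega)).1
  · simpa using (step i.natAbs (by omega)).2

/-- A bigeodesic through `o` exists. -/
def Through (t : Sym2 (ℤ × ℤ) → ℝ) (o : ℤ × ℤ) : Prop :=
  ∃ w, IsBigeodesic t w ∧ w 0 = o

/-- Compactness: windows of every radius give a bigeodesic. -/
theorem through_iff (o : ℤ × ℤ) :
    Through t o ↔ ∀ n : ℕ, ∃ w, Window t w n ∧ w 0 = o := by
  refine ⟨fun ⟨w, h, h0⟩ n => ⟨w, h.window n, h0⟩, fun h => ?_⟩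
  let box : ℤ → Set (ℤ × ℤ) := fun i => {p | |p.1 - o.1| ≤ |i| ∧ |p.2 - o.2| ≤ |i|}
  have hbox : ∀ i, (box i).Finite := fun i =>
    (Set.finite_Icc (o.1 - |i|, o.2 - |i|) (o.1 + |i|, o.2 + |i|)).subset fun p hp => by
      simp only [box, Set.mem_ofPred_eq, abs_le] at hp
      simp only [Set.mem_Icc, Prod.le_def]
      omega
  let F : ℕ → Set (ℤ → ℤ × ℤ) := fun n => Set.univ.pi box ∩ {w | Window t w n ∧ w 0 = o}
  have hne : ∀ n, (F n).Nonempty := by
    intro n
    obtain ⟨w, hw, h0⟩ := h n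
    have hd := hw.dist_le
    refine ⟨fun i => if i ∈ Icc (-(n : ℤ)) n then w i else o, ?_, hw.congr fun i hi => ?_, ?_⟩
    · intro i _
      simp only [box, Set.mem_ofPred_eq]
      split_ifs with hi
      · have := hd i hi
        rw [h0] at this
        have := abs_nonneg ((w i).1 - o.1)
        have := abs_nonneg ((w i).2 - o.2)
        constructor <;> linarith
      · simp
    · rw [if_pos hi]
    · simp [h0]
  have hclosed : ∀ n, IsClosed {w : ℤ → ℤ × ℤ | Window t w n ∧ w 0 = o} := by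
    intro n
    let R : (ℤ → ℤ × ℤ) → (Icc (-(n : ℤ)) n → ℤ × ℤ) := fun w i => w i
    have hR : Continuous R := continuous_pi fun i => continuous_apply _
    have e : {w : ℤ → ℤ × ℤ | Window t w n ∧ w 0 = o}
        = R ⁻¹' (R '' {w | Window t w n ∧ w 0 = o}) := by
      refine Set.Subset.antisymm (Set.subset_preimage_image R _) ?_
      rintro w ⟨w', ⟨hw', h0⟩, he⟩
      refine ⟨hw'.congr fun i hi => congrFun he ⟨i, hi⟩, ?_⟩
      rw [← h0]
      exact (congrFun he ⟨0, by simp⟩).symm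
    rw [e]
    exact (isClosed_discrete _).preimage hR
  have hK : IsCompact (Set.univ.pi box) := isCompact_univ_pi fun i => (hbox i).isCompact
  obtain ⟨w, hw⟩ := IsCompact.nonempty_iInter_of_sequence_nonempty_isCompact_isClosed F
    (fun n w hw => ⟨hw.1, hw.2.1.mono n.le_succ, hw.2.2⟩) hne
    (hK.inter_right (hclosed 0)) fun n => hK.isClosed.inter (hclosed n)
  have hw' : ∀ n, Window t w n ∧ w 0 = o := fun n => (Set.mem_iInter.1 hw n).2
  refine ⟨w, ⟨fun i j he => ?_, fun i => ?_, fun i j hij => ?_⟩, (hw' 0).2⟩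
  · exact (hw' (i.natAbs + j.natAbs)).1.1 i (mem_Icc.2 ⟨by omega, by omega⟩) j
      (mem_Icc.2 ⟨by omega, by omega⟩) he
  · exact (hw' (i.natAbs + 1)).1.2.1 i (mem_Ico.2 ⟨by omega, by omega⟩)
  · exact (hw' (i.natAbs + j.natAbs)).1.2.2 i (mem_Icc.2 ⟨by omega, by omega⟩) j
      (mem_Icc.2 ⟨by omega, by omega⟩) hij

lemma IsBigeodesic.reindex {w : ℤ → ℤ × ℤ} (h : IsBigeodesic t w) (c : ℤ) :
    IsBigeodesic t (fun i => w (i + c)) := by
  obtain ⟨h1, h2, h3⟩ := h
  refine ⟨fun i j e => by simpa using h1 e, fun i => by simpa [add_right_comm] using h2 (i + c),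
    fun i j hij => ?_⟩
  rw [← h3 (i + c) (j + c) (by omega)]
  refine Finset.sum_bij (fun k _ => k + c) (fun k hk => ?_) (fun a _ b _ e => by omega)
    (fun k hk => ?_) fun k _ => ?_
  · simp only [mem_Ico] at hk ⊢; omega
  · simp only [mem_Ico] at hk
    exact ⟨k - c, mem_Ico.2 ⟨by omega, by omega⟩, by omega⟩
  · dsimp only
    rw [add_right_comm k 1 c]

lemma through_of_mem {w : ℤ → ℤ × ℤ} (h : IsBigeodesic t w) (i : ℤ) : Through t (w i) :=
  ⟨_, h.reindex i, by simp⟩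

lemma exists_bigeodesic_iff : (∃ w, IsBigeodesic t w) ↔ ∃ o, Through t o :=
  ⟨fun ⟨_, h⟩ => ⟨_, through_of_mem h 0⟩, fun ⟨_, w, h, _⟩ => ⟨w, h⟩⟩

lemma measurable_pathCost (f : ℕ → ℤ × ℤ) (m : ℕ) :
    Measurable fun t : Sym2 (ℤ × ℤ) → ℝ => pathCost t f m :=
  Finset.measurable_sum _ fun _ _ => measurable_pi_apply _

lemma measurable_passage (x y : ℤ × ℤ) :
    Measurable fun t : Sym2 (ℤ × ℤ) → ℝ => passage t x y := by
  let ι := {p : (k : ℕ) × (Fin k → Fin 4) // IsPath (walk x p.2) p.1 x y}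
  have e : ∀ t : Sym2 (ℤ × ℤ) → ℝ,
      passage t x y = ⨅ p : ι, pathCost t (walk x p.1.2) p.1.1 := by
    intro t
    rw [passage, iInf]
    congr 1
    ext r
    rw [mem_costs_iff, Set.mem_range]
    constructor
    · rintro ⟨m, f, hf, rfl⟩
      obtain ⟨σ, hσ⟩ := exists_walk hf
      refine ⟨⟨⟨m, σ⟩, ?_, ?_, fun i hi => ?_⟩, pathCost_congr t hσ⟩
      · show walk x σ 0 = x; rw [hσ 0 m.zero_le, hf.1]
      · show walk x σ m = y; rw [hσ m le_rfl, hf.2.1]
      · show Nbr (walk x σ i) (walk x σ (i + 1))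
        rw [hσ i (Nat.le_of_lt hi), hσ (i + 1) hi]; exact hf.2.2 i hi
    · rintro ⟨p, rfl⟩
      exact ⟨_, _, p.2, rfl⟩
  simp_rw [e]
  exact Measurable.iInf fun p => measurable_pathCost _ _

lemma measurableSet_window (w : ℤ → ℤ × ℤ) (n : ℕ) :
    MeasurableSet {t : Sym2 (ℤ × ℤ) → ℝ | Window t w n} := by
  refine (MeasurableSet.const _).inter ((MeasurableSet.const _).inter ?_)
  show MeasurableSet {t : Sym2 (ℤ × ℤ) → ℝ | ∀ i ∈ Icc (-(n : ℤ)) n, ∀ j ∈ Icc (-(n : ℤ)) n,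
    i < j → ∑ k ∈ Ico i j, t s(w k, w (k + 1)) = passage t (w i) (w j)}
  simp only [Set.ofPred_forall]
  exact MeasurableSet.iInter fun i => MeasurableSet.iInter fun _ => MeasurableSet.iInter fun j =>
      MeasurableSet.iInter fun _ => MeasurableSet.iInter fun _ =>
        measurableSet_eq_fun (Finset.measurable_sum _ fun _ _ => measurable_pi_apply _)
          (measurable_passage _ _)

lemma measurableSet_through (o : ℤ × ℤ) :
    MeasurableSet {t : Sym2 (ℤ × ℤ) → ℝ | Through t o} := by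
  have e : {t : Sym2 (ℤ × ℤ) → ℝ | Through t o} = ⋂ n : ℕ,
      ⋃ u ∈ {u : Icc (-(n : ℤ)) n → ℤ × ℤ | u ⟨0, by simp⟩ = o},
        {t | Window t (fun i => if h : i ∈ Icc (-(n : ℤ)) n then u ⟨i, h⟩ else o) n} := by
    ext t
    simp only [Set.mem_ofPred_eq, through_iff, Set.mem_iInter, Set.mem_iUnion, exists_prop]
    refine forall_congr' fun n => ⟨fun ⟨w, hw, h0⟩ => ⟨fun i => w i, h0, hw.congr fun i hi => ?_⟩,
      fun ⟨u, h0, hu⟩ => ⟨_, hu, by simpa using h0⟩⟩
    rw [dif_pos hi]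
  rw [e]
  exact MeasurableSet.iInter fun n =>
    MeasurableSet.biUnion (Set.to_countable _) fun u _ => measurableSet_window _ n

theorem measurableSet_exists_bigeodesic :
    MeasurableSet {t : Sym2 (ℤ × ℤ) → ℝ | ∃ w, IsBigeodesic t w} := by
  simp only [exists_bigeodesic_iff, Set.ofPred_exists]
  exact MeasurableSet.iUnion measurableSet_through

/-- The existence of a bigeodesic has probability `0` or `1`. -/
theorem bigeodesic_zero_one (G : Measure ℝ) [IsProbabilityMeasure G] :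
    weightMeasure G {t | ∃ w, IsBigeodesic t w} = 0 ∨
      weightMeasure G {t | ∃ w, IsBigeodesic t w} = 1 := by
  refine zero_one G measurableSet_exists_bigeodesic fun v => Filter.Eventually.of_forall fun t => ?_
  exact propext (exists_bigeodesic_shift v)

/-- If bigeodesics exist with positive probability, a fixed vertex lies on one with positive
probability. -/
theorem through_origin_pos (G : Measure ℝ) [IsProbabilityMeasure G]
    (h : weightMeasure G {t | ∃ w, IsBigeodesic t w} ≠ 0) (o : ℤ × ℤ) :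
    weightMeasure G {t | Through t o} ≠ 0 := by
  intro ho
  refine h ?_
  simp only [exists_bigeodesic_iff, Set.ofPred_exists]
  refine measure_iUnion_null fun p => ?_
  rw [← (measurePreserving_shift G (p - o)).measure_preimage
    (measurableSet_through o).nullMeasurableSet] at ho
  refine measure_mono_null (fun t ⟨w, hw, h0⟩ => ?_) ho
  exact ⟨_, hw.shift (p - o), by simp [h0]⟩

end Vale.Agent.P158
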