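import Vale.Agent.P158.Detour
import Mathlib.Probability.Independence.InfinitePi
import Mathlib.Probability.Independence.Integration

/-!
Finite geodesics: for weights without negative values and without atoms they exist and are
unique almost surely. No moment assumption is needed.
-/

open MeasureTheory ProbabilityTheory Finset
open scoped ENNReal

namespace Vale.Agent.P158

/-- A nearest neighbour path with `m` steps from `x` to `y`. -/
def IsPath (f : ℕ → ℤ × ℤ) (m : ℕ) (x y : ℤ × ℤ) : Prop :=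
  f 0 = x ∧ f m = y ∧ ∀ i < m, Nbr (f i) (f (i + 1))

/-- The first `m + 1` vertices are pairwise distinct. -/
def IsSimple (f : ℕ → ℤ × ℤ) (m : ℕ) : Prop := ∀ i ≤ m, ∀ j ≤ m, f i = f j → i = j

/-- The cost of the first `m` steps. -/
def pathCost (t : Sym2 (ℤ × ℤ) → ℝ) (f : ℕ → ℤ × ℤ) (m : ℕ) : ℝ :=
  ∑ i ∈ range m, t s(f i, f (i + 1))

/-- A self-avoiding path whose cost is the passage time. -/
def IsGeodesic (t : Sym2 (ℤ × ℤ) → ℝ) (f : ℕ → ℤ × ℤ) (m : ℕ) (x y : ℤ × ℤ) : Prop :=
  IsPath f m x y ∧ IsSimple f m ∧ pathCost t f m = passage t x y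

/-- The edges of the first `m` steps. -/
def pathEdges (f : ℕ → ℤ × ℤ) (m : ℕ) : Finset (Sym2 (ℤ × ℤ)) :=
  (range m).image fun i => s(f i, f (i + 1))

variable {t : Sym2 (ℤ × ℤ) → ℝ} {f g : ℕ → ℤ × ℤ} {m m' : ℕ} {x y z : ℤ × ℤ}

lemma IsPath.mem_costs (h : IsPath f m x y) : pathCost t f m ∈ costs t x y :=
  ⟨m, f, h.1, h.2.1, h.2.2, rfl⟩

lemma mem_costs_iff {r : ℝ} :
    r ∈ costs t x y ↔ ∃ m f, IsPath f m x y ∧ pathCost t f m = r := by
  constructor
  · rintro ⟨m, f, h0, hm, hs, rfl⟩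
    exact ⟨m, f, ⟨h0, hm, hs⟩, rfl⟩
  · rintro ⟨m, f, h, rfl⟩
    exact h.mem_costs

lemma pathCost_nonneg (hpos : ∀ e, 0 ≤ t e) (f : ℕ → ℤ × ℤ) (m : ℕ) : 0 ≤ pathCost t f m :=
  sum_nonneg fun _ _ => hpos _

lemma passage_le_pathCost (hpos : ∀ e, 0 ≤ t e) (h : IsPath f m x y) :
    passage t x y ≤ pathCost t f m :=
  passage_le hpos ⟨_, h.mem_costs, le_rfl⟩

lemma conn_exists (t : Sym2 (ℤ × ℤ) → ℝ) (x y : ℤ × ℤ) : ∃ r, Conn t x y r := by
  have step : ∀ (k : ℕ) (x y : ℤ × ℤ), (x.1 - y.1).natAbs + (x.2 - y.2).natAbs = k →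
      ∃ r, Conn t x y r := by
    intro k
    induction k with
    | zero =>
      intro x y h
      obtain rfl : x = y := by ext <;> omega
      exact ⟨0, conn_refl x⟩
    | succ k ih =>
      intro x y h
      obtain ⟨w, hw, hk⟩ : ∃ w, Nbr w y ∧
          (x.1 - w.1).natAbs + (x.2 - w.2).natAbs = k := by
        rcases lt_trichotomy x.1 y.1 with h1 | h1 | h1
        · exact ⟨(y.1 - 1, y.2), by simp [Nbr], by dsimp only; omega⟩
        · rcases lt_trichotomy x.2 y.2 with h2 | h2 | h2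
          · exact ⟨(y.1, y.2 - 1), by simp [Nbr], by dsimp only; omega⟩
          · omega
          · exact ⟨(y.1, y.2 + 1), by simp [Nbr], by dsimp only; omega⟩
        · exact ⟨(y.1 + 1, y.2), by simp [Nbr], by dsimp only; omega⟩
      obtain ⟨r, hr⟩ := ih x w hk
      exact ⟨_, conn_step hr hw le_rfl⟩
  exact step _ x y rfl

lemma costs_nonempty (t : Sym2 (ℤ × ℤ) → ℝ) (x y : ℤ × ℤ) : (costs t x y).Nonempty :=
  let ⟨_, s, hs, _⟩ := conn_exists t x y
  ⟨s, hs⟩

lemma le_passage {r : ℝ} (h : ∀ s ∈ costs t x y, r ≤ s) : r ≤ passage t x y :=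
  le_csInf (costs_nonempty t x y) h

lemma passage_nonneg (hpos : ∀ e, 0 ≤ t e) (x y : ℤ × ℤ) : 0 ≤ passage t x y :=
  le_passage fun s hs => by
    obtain ⟨m, f, -, rfl⟩ := mem_costs_iff.1 hs
    exact pathCost_nonneg hpos f m

lemma passage_self (hpos : ∀ e, 0 ≤ t e) (x : ℤ × ℤ) : passage t x x = 0 :=
  le_antisymm (passage_le hpos (conn_refl x)) (passage_nonneg hpos x x)

lemma passage_comm (hpos : ∀ e, 0 ≤ t e) (x y : ℤ × ℤ) : passage t x y = passage t y x := by
  have h : ∀ a b, passage t a b ≤ passage t b a := fun a b =>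
    le_passage fun s hs => passage_le hpos (conn_symm ⟨s, hs, le_rfl⟩)
  exact le_antisymm (h x y) (h y x)

lemma passage_triangle (hpos : ∀ e, 0 ≤ t e) (x y z : ℤ × ℤ) :
    passage t x z ≤ passage t x y + passage t y z := by
  have h : ∀ a ∈ costs t x y, ∀ b ∈ costs t y z, passage t x z ≤ a + b := fun a ha b hb =>
    passage_le hpos (conn_trans ⟨a, ha, le_rfl⟩ ⟨b, hb, le_rfl⟩)
  have h2 : ∀ b ∈ costs t y z, passage t x z - b ≤ passage t x y := fun b hb =>
    le_passage fun a ha => by linarith [h a ha b hb]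
  have : passage t x z - passage t x y ≤ passage t y z :=
    le_passage fun b hb => by linarith [h2 b hb]
  linarith

/-- The cost of a segment. -/
lemma pathCost_split (t : Sym2 (ℤ × ℤ) → ℝ) (f : ℕ → ℤ × ℤ) {i m : ℕ} (h : i ≤ m) :
    pathCost t f m = pathCost t f i + pathCost t (fun k => f (i + k)) (m - i) := by
  obtain ⟨d, rfl⟩ := Nat.exists_eq_add_of_le h
  simp only [pathCost, sum_range_add, Nat.add_sub_cancel_left]
  rfl

lemma IsPath.segment (h : IsPath f m x y) {i j : ℕ} (hij : i ≤ j) (hj : j ≤ m) :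
    IsPath (fun k => f (i + k)) (j - i) (f i) (f j) :=
  ⟨by simp, by simp [Nat.add_sub_cancel' hij], fun k hk => h.2.2 (i + k) (by omega)⟩

/-- A path contains a self-avoiding path between its ends which is not more expensive. -/
lemma exists_simple_le (hpos : ∀ e, 0 ≤ t e) :
    ∀ (m : ℕ) (f : ℕ → ℤ × ℤ), IsPath f m x y →
      ∃ m' g, IsPath g m' x y ∧ IsSimple g m' ∧ m' ≤ m ∧ pathCost t g m' ≤ pathCost t f m := by
  intro m
  induction m using Nat.strong_induction_on with
  | _ m ih =>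
    intro f hf
    by_cases hs : IsSimple f m
    · exact ⟨m, f, hf, hs, le_rfl, le_rfl⟩
    simp only [IsSimple, not_forall] at hs
    obtain ⟨a, ha, b, hb, hab, hne⟩ := hs
    obtain ⟨i, j, hij, hj, he⟩ : ∃ i j, i < j ∧ j ≤ m ∧ f i = f j := by
      rcases lt_or_gt_of_ne hne with h | h
      exacts [⟨a, b, h, hb, hab⟩, ⟨b, a, h, ha, hab.symm⟩]
    set g : ℕ → ℤ × ℤ := fun k => if k ≤ i then f k else f (k + (j - i))
    have hg : IsPath g (m - (j - i)) x y := by
      refine ⟨by simp [g, hf.1], ?_, fun k hk => ?_⟩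
      · simp only [g]
        split_ifs with h
        · have hjm : j = m := by omega
          rw [show m - (j - i) = i by omega, he, hjm, hf.2.1]
        · rw [Nat.sub_add_cancel (by omega : j - i ≤ m), hf.2.1]
      · rcases lt_trichotomy k i with h | h | h
        · simp only [g, h.le, if_true, Nat.succ_le_of_lt h]
          exact hf.2.2 k (by omega)
        · subst h
          simp only [g, le_rfl, if_true, if_neg (Nat.not_succ_le_self k)]
          rw [he, show k + 1 + (j - k) = j + 1 by omega]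
          exact hf.2.2 j (by omega)
        · simp only [g, if_neg (Nat.not_le.2 h), if_neg (show ¬ k + 1 ≤ i by omega)]
          rw [show k + 1 + (j - i) = k + (j - i) + 1 by omega]
          exact hf.2.2 _ (by omega)
    obtain ⟨m', g', h1, h2, h3, h4⟩ := ih _ (by omega) g hg
    refine ⟨m', g', h1, h2, by omega, h4.trans ?_⟩
    rw [pathCost_split t g (by omega : i ≤ m - (j - i)), pathCost_split t f (by omega : j ≤ m),
      pathCost_split t f hij.le]
    have e1 : pathCost t g i = pathCost t f i :=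
      sum_congr rfl fun k hk => by
        have := mem_range.1 hk
        simp [g, this.le, Nat.succ_le_of_lt this]
    have e2 : pathCost t (fun k => g (i + k)) (m - (j - i) - i)
        = pathCost t (fun k => f (j + k)) (m - j) := by
      have e3 : ∀ k, g (i + k) = f (j + k) := by
        intro k
        simp only [g]
        split_ifs with h
        · obtain rfl : k = 0 := by omega
          simp [he]
        · congr 1; omega
      rw [show m - (j - i) - i = m - j by omega]
      simp only [pathCost, e3]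
    rw [e1, e2]
    linarith [pathCost_nonneg hpos (fun k => f (i + k)) (j - i)]

lemma IsSimple.edge_inj (h : IsSimple f m) {i j : ℕ} (hi : i < m) (hj : j < m)
    (he : s(f i, f (i + 1)) = s(f j, f (j + 1))) : i = j := by
  rcases Sym2.eq_iff.1 he with ⟨h1, -⟩ | ⟨h1, h2⟩
  · exact h i hi.le j hj.le h1
  · have a := h i hi.le (j + 1) hj h1
    have b := h (i + 1) hi j hj.le h2
    omega

lemma pathCost_eq_sum_edges (t : Sym2 (ℤ × ℤ) → ℝ) (h : IsSimple f m) :
    pathCost t f m = ∑ e ∈ pathEdges f m, t e := by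
  rw [pathEdges, sum_image fun i hi j hj he => h.edge_inj (mem_range.1 hi) (mem_range.1 hj) he]
  rfl

lemma IsSimple.mono (h : IsSimple f m) (h' : m' ≤ m) : IsSimple f m' :=
  fun i hi j hj he => h i (hi.trans h') j (hj.trans h') he

/-- Self-avoiding paths with the same ends and the same edges are equal. -/
lemma eq_of_pathEdges_eq (hf : IsSimple f m) (hg : IsSimple g m') (h0 : f 0 = g 0)
    (h : pathEdges f m = pathEdges g m') : m = m' ∧ ∀ i ≤ m, f i = g i := by
  have hm : m = m' := by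
    have := congrArg Finset.card h
    rwa [pathEdges, pathEdges,
      card_image_of_injOn fun i hi j hj he =>
        hf.edge_inj (mem_range.1 hi) (mem_range.1 hj) he,
      card_image_of_injOn fun i hi j hj he =>
        hg.edge_inj (mem_range.1 hi) (mem_range.1 hj) he, card_range, card_range] at this
  subst hm
  refine ⟨rfl, fun i hi => ?_⟩
  induction i using Nat.strong_induction_on with
  | _ i ih =>
    rcases i with _ | i
    · exact h0
    have hfg : f i = g i := ih i (by omega) (by omega)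
    have hmem : s(f i, f (i + 1)) ∈ pathEdges g m := by
      rw [← h]; exact mem_image.2 ⟨i, mem_range.2 (by omega), rfl⟩
    obtain ⟨j, hj, he⟩ := mem_image.1 hmem
    have hj' := mem_range.1 hj
    rcases Sym2.eq_iff.1 he with ⟨a, b⟩ | ⟨a, b⟩
    · obtain rfl := hg j hj'.le i (by omega) (a.trans hfg)
      exact b.symm
    · have hji : j + 1 = i := hg (j + 1) hj' i (by omega) (b.trans hfg)
      have h1 : f j = g j := ih j (by omega) (by omega)
      exact absurd (hf (i + 1) hi j (by omega) (a.symm.trans h1.symm)) (by omega)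

/-! ### Paths as step sequences -/

/-- The four unit steps. -/
def unit4 : Fin 4 → ℤ × ℤ := ![(1, 0), (-1, 0), (0, 1), (0, -1)]

/-- The path from `x` with the given steps. -/
def walk (x : ℤ × ℤ) {m : ℕ} (σ : Fin m → Fin 4) (k : ℕ) : ℤ × ℤ :=
  x + ∑ i ∈ Finset.univ.filter (fun i : Fin m => (i : ℕ) < k), unit4 (σ i)

lemma exists_unit4 {u v : ℤ × ℤ} (h : Nbr u v) : ∃ c, v = u + unit4 c := by
  simp only [Nbr] at h
  have h1 := abs_nonneg (u.1 - v.1)
  have h2 := abs_nonneg (u.2 - v.2)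
  obtain ⟨u1, u2⟩ := u
  obtain ⟨v1, v2⟩ := v
  dsimp only at h h1 h2
  rcases (abs_choice (u1 - v1)) with a | a <;> rcases (abs_choice (u2 - v2)) with b | b
  all_goals
    rw [a, b] at h
    rw [a] at h1
    rw [b] at h2
    rcases (by omega : (v1 = u1 + 1 ∧ v2 = u2) ∨ (v1 = u1 - 1 ∧ v2 = u2) ∨
        (v1 = u1 ∧ v2 = u2 + 1) ∨ (v1 = u1 ∧ v2 = u2 - 1)) with c | c | c | c
    · exact ⟨0, by ext <;> simp [unit4, c.1, c.2]⟩
    · exact ⟨1, by ext <;> simp [unit4, c.1, c.2, sub_eq_add_neg]⟩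
    · exact ⟨2, by ext <;> simp [unit4, c.1, c.2]⟩
    · exact ⟨3, by ext <;> simp [unit4, c.1, c.2, sub_eq_add_neg]⟩

lemma exists_walk (h : IsPath f m x y) :
    ∃ σ : Fin m → Fin 4, ∀ k ≤ m, walk x σ k = f k := by
  choose c hc using fun i : Fin m => exists_unit4 (h.2.2 i i.2)
  refine ⟨c, fun k hk => ?_⟩
  induction k with
  | zero => simp [walk, h.1]
  | succ k ih =>
    have e : Finset.univ.filter (fun i : Fin m => (i : ℕ) < k + 1)
        = insert ⟨k, hk⟩ (Finset.univ.filter fun i : Fin m => (i : ℕ) < k) := by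
      ext i; simp [Fin.ext_iff]; omega
    rw [walk, e, sum_insert (by simp), hc ⟨k, hk⟩, ← ih (by omega), walk]
    abel

lemma pathCost_congr (t : Sym2 (ℤ × ℤ) → ℝ) (h : ∀ k ≤ m, f k = g k) :
    pathCost t f m = pathCost t g m :=
  sum_congr rfl fun i hi => by
    rw [h i (mem_range.1 hi).le, h (i + 1) (mem_range.1 hi)]

lemma IsSimple.congr (hf : IsSimple f m) (h : ∀ k ≤ m, f k = g k) : IsSimple g m :=
  fun i hi j hj he => hf i hi j hj (by rw [h i hi, h j hj, he])

/-- Only boundedly long self-avoiding paths from a given vertex have a given cost. -/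
def Peierls (t : Sym2 (ℤ × ℤ) → ℝ) : Prop :=
  ∀ (x : ℤ × ℤ) (r : ℝ), ∃ L, ∀ m f y, IsPath f m x y → IsSimple f m →
    pathCost t f m ≤ r → m < L

/-- Under the Peierls bound finite geodesics exist. -/
theorem exists_geodesic (hpos : ∀ e, 0 ≤ t e) (hP : Peierls t) (x y : ℤ × ℤ) :
    ∃ m f, IsGeodesic t f m x y := by
  classical
  obtain ⟨r₀, s₀, hs₀, hle₀⟩ := conn_exists t x y
  obtain ⟨m₀, f₀, hf₀, rfl⟩ := mem_costs_iff.1 hs₀
  obtain ⟨m₁, f₁, hf₁, hsf₁, -, hc₁⟩ := exists_simple_le hpos m₀ f₀ hf₀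
  obtain ⟨L, hL⟩ := hP x (pathCost t f₀ m₀)
  let F : (k : ℕ) × (Fin k → Fin 4) → ℝ := fun p => pathCost t (walk x p.2) p.1
  let A : Finset ((k : ℕ) × (Fin k → Fin 4)) :=
    ((range L).sigma fun _ => Finset.univ).filter fun p =>
      IsPath (walk x p.2) p.1 x y ∧ IsSimple (walk x p.2) p.1
  have repr : ∀ m f, IsPath f m x y → IsSimple f m → m < L →
      ∃ p ∈ A, F p = pathCost t f m := by
    intro m f hf hs hm
    obtain ⟨σ, hσ⟩ := exists_walk hf
    refine ⟨⟨m, σ⟩, ?_, pathCost_congr t hσ⟩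
    simp only [A, mem_filter, mem_sigma, mem_range, mem_univ, and_true]
    refine ⟨hm, ⟨?_, ?_, fun i hi => ?_⟩, hs.congr fun k hk => (hσ k hk).symm⟩
    · rw [hσ 0 m.zero_le, hf.1]
    · rw [hσ m le_rfl, hf.2.1]
    · rw [hσ i hi.le, hσ (i + 1) hi]; exact hf.2.2 i hi
  obtain ⟨p₁, hp₁, hFp₁⟩ := repr m₁ f₁ hf₁ hsf₁ (hL m₁ f₁ y hf₁ hsf₁ hc₁)
  obtain ⟨p, hp, hmin⟩ := A.exists_min_image F ⟨p₁, hp₁⟩
  simp only [A, mem_filter] at hp
  refine ⟨p.1, walk x p.2, hp.2.1, hp.2.2, le_antisymm ?_ (passage_le_pathCost hpos hp.2.1)⟩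
  refine le_passage fun s hs => ?_
  obtain ⟨m, f, hf, rfl⟩ := mem_costs_iff.1 hs
  by_cases hle : pathCost t f m ≤ pathCost t f₀ m₀
  · obtain ⟨m', f', hf', hs', -, hc'⟩ := exists_simple_le hpos m f hf
    obtain ⟨q, hq, hFq⟩ := repr m' f' hf' hs' (hL m' f' y hf' hs' (hc'.trans hle))
    exact (hmin q hq).trans (hFq.le.trans hc')
  · calc F p ≤ F p₁ := hmin p₁ hp₁
      _ ≤ pathCost t f₀ m₀ := hFp₁.le.trans hc₁
      _ ≤ _ := (not_le.1 hle).le

/-- A piece of a geodesic is a geodesic. -/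
theorem IsGeodesic.segment (hpos : ∀ e, 0 ≤ t e) (h : IsGeodesic t f m x y) {i j : ℕ}
    (hij : i ≤ j) (hj : j ≤ m) :
    IsGeodesic t (fun k => f (i + k)) (j - i) (f i) (f j) := by
  obtain ⟨hp, hs, hc⟩ := h
  have hseg := hp.segment hij hj
  refine ⟨hseg, fun a ha b hb he => ?_, le_antisymm ?_ (passage_le_pathCost hpos hseg)⟩
  · have := hs (i + a) (by omega) (i + b) (by omega) he; omega
  have h1 : IsPath f i x (f i) := ⟨hp.1, rfl, fun k hk => hp.2.2 k (by omega)⟩
  have h2 : IsPath (fun k => f (j + k)) (m - j) (f j) y := by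
    have := hp.segment hj le_rfl; rwa [hp.2.1] at this
  have e1 := pathCost_split t f hj
  have e2 := pathCost_split t f hij
  rw [hc] at e1
  linarith [passage_le_pathCost hpos h1, passage_le_pathCost hpos h2,
    passage_triangle hpos x (f i) y, passage_triangle hpos (f i) (f j) y]

/-! ### Almost sure properties -/

variable {G : Measure ℝ} [IsProbabilityMeasure G]

instance : IsProbabilityMeasure (weightMeasure G) := by unfold weightMeasure; infer_instance

lemma iIndepFun_weights :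
    iIndepFun (fun (e : Sym2 (ℤ × ℤ)) (t : Sym2 (ℤ × ℤ) → ℝ) => t e) (weightMeasure G) :=
  iIndepFun_infinitePi (X := fun _ r => r) (fun _ => measurable_id)

lemma map_eval_weights (e : Sym2 (ℤ × ℤ)) :
    (weightMeasure G).map (fun t => t e) = G :=
  Measure.infinitePi_map_eval _ e

theorem ae_nonneg (h0 : G (Set.Iio 0) = 0) : ∀ᵐ t ∂weightMeasure G, ∀ e, 0 ≤ t e := by
  refine ae_all_iff.2 fun e => ?_
  have h : (weightMeasure G).map (fun t => t e) (Set.Iio 0) = 0 := by rw [map_eval_weights]; exact h0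
  rw [Measure.map_apply (measurable_pi_apply e) measurableSet_Iio] at h
  filter_upwards [measure_eq_zero_iff_ae_notMem.1 h] with t ht
  simpa using ht

/-- Distinct finite edge sets have distinct weights, almost surely. -/
theorem ae_sum_ne (hat : ∀ a, G {a} = 0) :
    ∀ᵐ t ∂weightMeasure G, ∀ E E' : Finset (Sym2 (ℤ × ℤ)),
      ∑ e ∈ E, t e = ∑ e ∈ E', t e → E = E' := by
  refine ae_all_iff.2 fun E => ae_all_iff.2 fun E' => ?_
  by_cases hE : E = E'
  · exact Filter.Eventually.of_forall fun t _ => hE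
  obtain ⟨d, S, S', hd, hd', hS⟩ : ∃ d, ∃ S S' : Finset (Sym2 (ℤ × ℤ)), d ∉ S ∧ d ∉ S' ∧
      ∀ t : Sym2 (ℤ × ℤ) → ℝ, ∑ e ∈ E, t e = ∑ e ∈ E', t e →
        t d = ∑ e ∈ S, t e - ∑ e ∈ S', t e := by
    obtain ⟨d, hd⟩ : ∃ d, (d ∈ E ∧ d ∉ E') ∨ (d ∈ E' ∧ d ∉ E) := by
      by_contra hh
      push Not at hh
      exact hE (Finset.ext fun d => ⟨(hh d).1, (hh d).2⟩)
    rcases hd with ⟨h1, h2⟩ | ⟨h1, h2⟩
    · exact ⟨d, E', E.erase d, h2, notMem_erase d E, fun t h => by
        linarith [add_sum_erase E t h1]⟩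
    · exact ⟨d, E, E'.erase d, h2, notMem_erase d E', fun t h => by
        linarith [add_sum_erase E' t h1]⟩
  classical
  set T := S ∪ S' with hT
  have hdT : d ∉ T := by simp [hT, hd, hd']
  set Ψ : (T → ℝ) → ℝ := fun w => ∑ e : T, ((if e.1 ∈ S then w e else 0) - if e.1 ∈ S' then w e else 0)
  have hΨm : Measurable Ψ := by
    refine Finset.measurable_sum _ fun e _ => ?_
    refine Measurable.sub ?_ ?_ <;> split <;> fun_prop
  have hΨ : ∀ t : Sym2 (ℤ × ℤ) → ℝ, Ψ (fun e => t e.1) = ∑ e ∈ S, t e - ∑ e ∈ S', t e := by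
    intro t
    simp only [Ψ, sum_sub_distrib]
    congr 1
    · rw [Finset.univ_eq_attach, sum_attach T fun e => if e ∈ S then t e else 0, sum_ite_mem,
        inter_eq_right.2 subset_union_left]
    · rw [Finset.univ_eq_attach, sum_attach T fun e => if e ∈ S' then t e else 0, sum_ite_mem,
        inter_eq_right.2 subset_union_right]
  have hind : IndepFun (fun t : Sym2 (ℤ × ℤ) → ℝ => t d) (fun t => Ψ fun e => t e.1)
      (weightMeasure G) :=
    ((iIndepFun_weights (G := G)).indepFun_finset {d} T (disjoint_singleton_left.2 hdT)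
      measurable_pi_apply).comp (measurable_pi_apply (⟨d, mem_singleton_self d⟩ : ({d} : Finset _))) hΨm
  have hm1 : Measurable fun t : Sym2 (ℤ × ℤ) → ℝ => t d := measurable_pi_apply d
  have hm2 : Measurable fun t : Sym2 (ℤ × ℤ) → ℝ => Ψ fun e : T => t e.1 :=
    hΨm.comp (measurable_pi_lambda _ fun e => measurable_pi_apply _)
  have hdiag : MeasurableSet {p : ℝ × ℝ | p.1 = p.2} :=
    measurableSet_eq_fun measurable_fst measurable_snd
  have hzero : weightMeasure G {t | t d = Ψ fun e => t e.1} = 0 := by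
    have h := hind.map_prod_eq_prod_map_map hm1.aemeasurable hm2.aemeasurable
    have hs : {t : Sym2 (ℤ × ℤ) → ℝ | t d = Ψ fun e => t e.1}
        = (fun t => (t d, Ψ fun e : T => t e.1)) ⁻¹' {p : ℝ × ℝ | p.1 = p.2} := rfl
    rw [hs, ← Measure.map_apply (hm1.prodMk hm2) hdiag, h, map_eval_weights,
      Measure.prod_apply_symm hdiag]
    have : ∀ b : ℝ, G ((fun a => (a, b)) ⁻¹' {p : ℝ × ℝ | p.1 = p.2}) = 0 := fun b => by
      rw [show (fun a : ℝ => (a, b)) ⁻¹' {p : ℝ × ℝ | p.1 = p.2} = {b} by ext; simp]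
      exact hat b
    rw [lintegral_congr this, lintegral_zero]
  filter_upwards [measure_eq_zero_iff_ae_notMem.1 hzero] with t ht h
  exact absurd (by simpa [hΨ t] using hS t h) ht

lemma lintegral_exp_pathCost (hf : IsSimple f m) (s : ℝ) :
    ∫⁻ t, ENNReal.ofReal (Real.exp (-s * pathCost t f m)) ∂weightMeasure G
      = (∫⁻ r, ENNReal.ofReal (Real.exp (-s * r)) ∂G) ^ m := by
  have hm : Measurable fun r : ℝ => ENNReal.ofReal (Real.exp (-s * r)) := by fun_prop
  have e : ∀ t : Sym2 (ℤ × ℤ) → ℝ, ENNReal.ofReal (Real.exp (-s * pathCost t f m))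
      = ∏ d ∈ pathEdges f m, ENNReal.ofReal (Real.exp (-s * t d)) := fun t => by
    rw [pathCost_eq_sum_edges t hf, mul_sum, Real.exp_sum,
      ENNReal.ofReal_prod_of_nonneg fun _ _ => (Real.exp_pos _).le]
  simp only [e]
  rw [lintegral_prod_eq_prod_lintegral_of_indepFun _
    (fun (d : Sym2 (ℤ × ℤ)) (t : Sym2 (ℤ × ℤ) → ℝ) => ENNReal.ofReal (Real.exp (-s * t d)))
    ((iIndepFun_weights (G := G)).comp _ fun _ => hm) fun d => hm.comp (measurable_pi_apply d)]
  rw [prod_congr rfl fun d _ => by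
    rw [← lintegral_map hm (measurable_pi_apply d), map_eval_weights], prod_const]
  congr 1
  rw [pathEdges, card_image_of_injOn fun i hi j hj he =>
    hf.edge_inj (mem_range.1 hi) (mem_range.1 hj) he, card_range]

lemma exists_tilt (h0 : G (Set.Iio 0) = 0) (hz : G {0} = 0) :
    ∃ s : ℝ, 0 < s ∧ ∫⁻ r, ENNReal.ofReal (Real.exp (-s * r)) ∂G ≤ 1 / 8 := by
  have hae : ∀ᵐ r ∂G, 0 < r := by
    have h : G (Set.Iio 0 ∪ {0}) = 0 := measure_union_null h0 hz
    filter_upwards [measure_eq_zero_iff_ae_notMem.1 h] with r hr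
    simp only [Set.mem_union, Set.mem_Iio, Set.mem_singleton_iff, not_or, not_lt] at hr
    exact lt_of_le_of_ne hr.1 (Ne.symm hr.2)
  have hlim : Filter.Tendsto
      (fun k : ℕ => ∫⁻ r, ENNReal.ofReal (Real.exp (-((k : ℝ) + 1) * r)) ∂G)
      Filter.atTop (nhds 0) := by
    have h := tendsto_lintegral_of_dominated_convergence (μ := G)
      (F := fun (k : ℕ) r => ENNReal.ofReal (Real.exp (-((k : ℝ) + 1) * r)))
      (f := fun _ => 0) (bound := fun _ => 1) (fun k => by fun_prop) (fun k => ?_) (by simp) ?_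
    · simpa using h
    · filter_upwards [hae] with r hr
      refine ENNReal.ofReal_le_one.2 (Real.exp_le_one_iff.2 ?_)
      nlinarith [(Nat.cast_nonneg k : (0:ℝ) ≤ k)]
    · filter_upwards [hae] with r hr
      rw [← ENNReal.ofReal_zero]
      refine ENNReal.tendsto_ofReal (Real.tendsto_exp_atBot.comp ?_)
      refine Filter.Tendsto.atBot_mul_const hr (Filter.tendsto_neg_atTop_atBot.comp ?_)
      exact Filter.tendsto_atTop_add_const_right _ _ tendsto_natCast_atTop_atTop
  obtain ⟨k, hk⟩ := (hlim.eventually (ge_mem_nhds (by norm_num : (0 : ℝ≥0∞) < 1 / 8))).exists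
  exact ⟨(k : ℝ) + 1, by positivity, hk⟩

theorem ae_peierls (h0 : G (Set.Iio 0) = 0) (hz : G {0} = 0) :
    ∀ᵐ t ∂weightMeasure G, Peierls t := by
  classical
  obtain ⟨s, hs, hρ⟩ := exists_tilt h0 hz
  have key : ∀ (x : ℤ × ℤ) (k : ℕ), ∀ᵐ t ∂weightMeasure G,
      ∃ L, ∀ σ : Fin L → Fin 4, IsSimple (walk x σ) L → (k : ℝ) < pathCost t (walk x σ) L := by
    intro x k
    set bad : ℕ → Set (Sym2 (ℤ × ℤ) → ℝ) := fun L =>
      {t | ∃ σ : Fin L → Fin 4, IsSimple (walk x σ) L ∧ pathCost t (walk x σ) L ≤ k}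
    set c := ENNReal.ofReal (Real.exp (s * k))
    have hbad : ∀ L, weightMeasure G (bad L) ≤ c * (1 / 2) ^ L := by
      intro L
      have hsub : bad L ⊆ ⋃ σ ∈ (Finset.univ.filter fun σ : Fin L → Fin 4 =>
          IsSimple (walk x σ) L), {t | (1 : ℝ≥0∞) ≤
            c * ENNReal.ofReal (Real.exp (-s * pathCost t (walk x σ) L))} := by
        rintro t ⟨σ, hσ, hc⟩
        simp only [Set.mem_iUnion, mem_filter, mem_univ, true_and]
        refine ⟨σ, hσ, ?_⟩
        show (1 : ℝ≥0∞) ≤ _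
        rw [← ENNReal.ofReal_mul (Real.exp_pos _).le, ← Real.exp_add]
        exact ENNReal.one_le_ofReal.2 (Real.one_le_exp (by nlinarith))
      refine (measure_mono hsub).trans ((measure_biUnion_finset_le _ _).trans ?_)
      refine (sum_le_card_nsmul _ _ (c * (1 / 8) ^ L) fun σ hσ => ?_).trans ?_
      · simp only [mem_filter] at hσ
        have hm : Measurable fun t : Sym2 (ℤ × ℤ) → ℝ =>
            c * ENNReal.ofReal (Real.exp (-s * pathCost t (walk x σ) L)) := by
          unfold pathCost; fun_prop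
        calc weightMeasure G {t | (1 : ℝ≥0∞) ≤ c * ENNReal.ofReal
              (Real.exp (-s * pathCost t (walk x σ) L))}
            = 1 * weightMeasure G {t | (1 : ℝ≥0∞) ≤ c * ENNReal.ofReal
              (Real.exp (-s * pathCost t (walk x σ) L))} := (one_mul _).symm
          _ ≤ ∫⁻ t, c * ENNReal.ofReal (Real.exp (-s * pathCost t (walk x σ) L))
              ∂weightMeasure G := mul_meas_ge_le_lintegral hm 1
          _ ≤ c * (1 / 8) ^ L := by
            rw [lintegral_const_mul' _ _ ENNReal.ofReal_ne_top, lintegral_exp_pathCost hσ.2 s]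
            gcongr
      · rw [nsmul_eq_mul]
        calc ((Finset.univ.filter fun σ : Fin L → Fin 4 => IsSimple (walk x σ) L).card : ℝ≥0∞)
              * (c * (1 / 8) ^ L)
            ≤ (4 : ℝ≥0∞) ^ L * (c * (1 / 8) ^ L) := by
              gcongr
              calc ((Finset.univ.filter fun σ : Fin L → Fin 4 =>
                    IsSimple (walk x σ) L).card : ℝ≥0∞)
                  ≤ ((Fintype.card (Fin L → Fin 4) : ℕ) : ℝ≥0∞) := by
                    exact_mod_cast Finset.card_le_univ _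
                _ = _ := by simp
          _ = c * (1 / 2) ^ L := by
              rw [mul_left_comm, ← mul_pow]
              congr 2
              rw [show (8 : ℝ≥0∞) = 4 * 2 by norm_num, one_div, one_div,
                ENNReal.mul_inv (by simp) (by simp), ← mul_assoc,
                ENNReal.mul_inv_cancel (by simp) (by simp), one_mul]
    have hnull : weightMeasure G (⋂ L, bad L) = 0 := by
      have hlim : Filter.Tendsto (fun L : ℕ => c * (1 / 2 : ℝ≥0∞) ^ L) Filter.atTop (nhds 0) := by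
        simpa using ENNReal.Tendsto.const_mul
          (ENNReal.tendsto_pow_atTop_nhds_zero_of_lt_one (by norm_num : (1 / 2 : ℝ≥0∞) < 1))
          (Or.inr ENNReal.ofReal_ne_top)
      exact le_antisymm (le_of_tendsto_of_tendsto' tendsto_const_nhds hlim
        fun L => (measure_mono (Set.iInter_subset bad L)).trans (hbad L)) zero_le
    filter_upwards [measure_eq_zero_iff_ae_notMem.1 hnull] with t ht
    simp only [bad, Set.mem_iInter, not_forall, Set.mem_ofPred_eq, not_exists, not_and, not_le] at ht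
    exact ht
  filter_upwards [ae_nonneg h0, ae_all_iff.2 fun x => ae_all_iff.2 (key x)] with t hpos ht x r
  obtain ⟨k, hk⟩ := exists_nat_ge r
  obtain ⟨L, hL⟩ := ht x k
  refine ⟨L, fun m f y hf hsi hc => ?_⟩
  by_contra hm
  push Not at hm
  obtain ⟨σ, hσ⟩ := exists_walk (f := f) (m := L) (x := x) (y := f L)
    ⟨hf.1, rfl, fun i hi => hf.2.2 i (lt_of_lt_of_le hi hm)⟩
  have h1 := hL σ ((hsi.mono hm).congr fun i hi => (hσ i hi).symm)
  rw [pathCost_congr t hσ] at h1
  have h2 : pathCost t f L ≤ pathCost t f m := by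
    rw [pathCost_split t f hm]; linarith [pathCost_nonneg hpos (fun i => f (L + i)) (m - L)]
  linarith

/-- Almost surely each pair of vertices is joined by exactly one geodesic. -/
theorem ae_geodesics (h0 : G (Set.Iio 0) = 0) (hat : ∀ a, G {a} = 0) :
    ∀ᵐ t ∂weightMeasure G, (∀ e, 0 ≤ t e) ∧ Peierls t ∧
      (∀ x y, ∃ m f, IsGeodesic t f m x y) ∧
      ∀ x y m f m' g, IsGeodesic t f m x y → IsGeodesic t g m' x y →
        m = m' ∧ ∀ i ≤ m, f i = g i := by
  filter_upwards [ae_nonneg h0, ae_peierls h0 (hat 0), ae_sum_ne hat] with t hpos hP hne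
  refine ⟨hpos, hP, exists_geodesic hpos hP, fun x y m f m' g hf hg => ?_⟩
  refine eq_of_pathEdges_eq hf.2.1 hg.2.1 (hf.1.1.trans hg.1.1.symm) (hne _ _ ?_)
  rw [← pathCost_eq_sum_edges t hf.2.1, ← pathCost_eq_sum_edges t hg.2.1, hf.2.2, hg.2.2]

end Vale.Agent.P158
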