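import Vale.Agent.P158.Detour

/-!
Almost surely no geodesic ray stays within bounded distance of a straight line.
-/

open MeasureTheory Finset Filter
open scoped Topology

namespace Vale.Agent.P158

/-- Cylinder with prescribed value sets. -/
def rect (S : Finset (Sym2 (ℤ × ℤ))) (f : Sym2 (ℤ × ℤ) → Set ℝ) : Set (Sym2 (ℤ × ℤ) → ℝ) :=
  {t | ∀ e ∈ S, t e ∈ f e}

lemma rect_eq (S : Finset (Sym2 (ℤ × ℤ))) (f : Sym2 (ℤ × ℤ) → Set ℝ) :
    rect S f = Set.pi (↑S) f := by
  ext t; simp [rect, Set.mem_pi]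

variable (G : Measure ℝ) [IsProbabilityMeasure G]

lemma measurableSet_rect (S : Finset (Sym2 (ℤ × ℤ))) {f : Sym2 (ℤ × ℤ) → Set ℝ}
    (hf : ∀ e, MeasurableSet (f e)) : MeasurableSet (rect S f) := by
  rw [rect_eq]; exact .pi S.countable_toSet fun e _ => hf e

lemma real_rect (S : Finset (Sym2 (ℤ × ℤ))) {f : Sym2 (ℤ × ℤ) → Set ℝ}
    (hf : ∀ e, MeasurableSet (f e)) :
    (weightMeasure G).real (rect S f) = ∏ e ∈ S, G.real (f e) := by
  rw [measureReal_def, rect_eq, weightMeasure, Measure.infinitePi_pi _ (fun e _ => hf e),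
    ENNReal.toReal_prod]
  rfl

/-- Independent windows fail together with the product probability. -/
lemma real_avoid {ι : Type*} [DecidableEq ι] (E : ι → Finset (Sym2 (ℤ × ℤ)))
    (D : ι → Sym2 (ℤ × ℤ) → Set ℝ) (hD : ∀ k e, MeasurableSet (D k e)) (s : Finset ι)
    (hdis : (s : Set ι).PairwiseDisjoint E) :
    ∀ (S : Finset (Sym2 (ℤ × ℤ))) (f : Sym2 (ℤ × ℤ) → Set ℝ), (∀ e, MeasurableSet (f e)) →
      (∀ k ∈ s, Disjoint S (E k)) →
      (weightMeasure G).real (rect S f ∩ ⋂ k ∈ s, (rect (E k) (D k))ᶜ)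
        = (∏ e ∈ S, G.real (f e)) * ∏ k ∈ s, (1 - ∏ e ∈ E k, G.real (D k e)) := by
  haveI : IsProbabilityMeasure (weightMeasure G) := by unfold weightMeasure; infer_instance
  induction s using Finset.induction_on with
  | empty => intro S f hf _; simp [real_rect G S hf]
  | @insert a s ha ih =>
    intro S f hf hS
    classical
    have hdis' : (s : Set ι).PairwiseDisjoint E :=
      hdis.subset (by rw [coe_insert]; exact Set.subset_insert _ _)
    set f' : Sym2 (ℤ × ℤ) → Set ℝ := fun e => if e ∈ S then f e else D a e with hf'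
    have hSa : Disjoint S (E a) := hS a (mem_insert_self a s)
    have hR : rect S f ∩ rect (E a) (D a) = rect (S ∪ E a) f' := by
      ext t
      simp only [rect, Set.mem_inter_iff, Set.mem_ofPred_eq, mem_union, hf']
      constructor
      · rintro ⟨h1, h2⟩ e (he | he)
        · rw [if_pos he]; exact h1 e he
        · rw [if_neg (Finset.disjoint_right.1 hSa he)]; exact h2 e he
      · intro h
        exact ⟨fun e he => by simpa [he] using h e (Or.inl he),
          fun e he => by simpa [Finset.disjoint_right.1 hSa he] using h e (Or.inr he)⟩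
    have hm' : ∀ e, MeasurableSet (f' e) := fun e => by
      simp only [hf']; split
      · exact hf e
      · exact hD a e
    have h1 := ih hdis' S f hf fun k hk => hS k (mem_insert_of_mem hk)
    have h2 := ih hdis' (S ∪ E a) f' hm' fun k hk => disjoint_union_left.2
      ⟨hS k (mem_insert_of_mem hk), hdis (by simp) (by simp [hk]) fun e => ha (e ▸ hk)⟩
    have hmeas : MeasurableSet (rect (S ∪ E a) f' ∩ ⋂ k ∈ s, (rect (E k) (D k))ᶜ) :=
      (measurableSet_rect _ hm').inter
        (Finset.measurableSet_biInter _ fun k _ => (measurableSet_rect _ (hD k)).compl)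
    have hset : rect S f ∩ ⋂ k ∈ insert a s, (rect (E k) (D k))ᶜ
        = (rect S f ∩ ⋂ k ∈ s, (rect (E k) (D k))ᶜ) \
          (rect (S ∪ E a) f' ∩ ⋂ k ∈ s, (rect (E k) (D k))ᶜ) := by
      rw [← hR, Finset.set_biInter_insert]
      ext t
      simp only [Set.mem_inter_iff, Set.mem_sdiff, Set.mem_compl_iff]
      tauto
    rw [hset, measureReal_sdiff (by rw [← hR]; exact Set.inter_subset_inter_left _ Set.inter_subset_left)
      hmeas, h1, h2, prod_union hSa, prod_insert ha]
    have e1 : ∏ e ∈ S, G.real (f' e) = ∏ e ∈ S, G.real (f e) :=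
      prod_congr rfl fun e he => by simp [hf', he]
    have e2 : ∏ e ∈ E a, G.real (f' e) = ∏ e ∈ E a, G.real (D a e) :=
      prod_congr rfl fun e he => by simp [hf', Finset.disjoint_right.1 hSa he]
    rw [e1, e2]
    ring

/-- The profile `x ↦ ⌊j x / D⌋`. -/
def profile (D : ℕ) (j : ℤ) (x : ℤ) : ℤ := j * x / (D : ℤ)

lemma profile_ok {D : ℕ} (hD : 0 < D) {j : ℤ} (hj : j.natAbs ≤ D) : Profile (profile D j) := by
  have hD' : (0 : ℤ) < D := by exact_mod_cast hD
  have hj' : -(D : ℤ) ≤ j ∧ j ≤ D := by omega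
  have key : ∀ x, profile D j (x + 1) = (j * x + j) / (D : ℤ) := fun x => by
    simp [profile, mul_add]
  refine ⟨?_, fun x => ?_⟩
  · rcases le_total 0 j with h | h
    · left; intro x; rw [key]; exact Int.ediv_le_ediv hD' (by linarith)
    · right; intro x; rw [key]; exact Int.ediv_le_ediv hD' (by linarith)
  · rw [key, profile, abs_le]
    have h1 : (j * x + j) / (D : ℤ) ≤ (j * x + D) / (D : ℤ) := Int.ediv_le_ediv hD' (by linarith)
    have h2 : (j * x + -(D : ℤ)) / (D : ℤ) ≤ (j * x + j) / (D : ℤ) := Int.ediv_le_ediv hD' (by linarith)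
    have e1 : (j * x + D) / (D : ℤ) = j * x / D + 1 := by
      rw [Int.add_ediv_of_dvd_right dvd_rfl, Int.ediv_self hD'.ne']
    have e2 : (j * x + -(D : ℤ)) / (D : ℤ) = j * x / D - 1 := by
      rw [Int.add_ediv_of_dvd_right (dvd_neg.2 dvd_rfl), Int.neg_ediv_of_dvd dvd_rfl,
        Int.ediv_self hD'.ne']
      ring
    omega

/-- All windows between `N` and `2 N` fail for some profile. -/
def Bad (W L N : ℕ) (α β M : ℝ) : Set (Sym2 (ℤ × ℤ) → ℝ) :=
  ⋃ j ∈ Icc (-(((2 * N + 1) * (L + 1) : ℕ) : ℤ)) (((2 * N + 1) * (L + 1) : ℕ) : ℤ),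
    {t | ∀ k ∈ Finset.Ico N (2 * N),
      ¬ GoodWindow t (profile ((2 * N + 1) * (L + 1)) j) W ((k * (L + 1) : ℕ) : ℤ)
        (((k * (L + 1) : ℕ) : ℤ) + L) α β M}

lemma measurable_demand (g : ℤ → ℤ) (W : ℕ) (α β M : ℝ) (e : Sym2 (ℤ × ℤ)) :
    MeasurableSet (demand g W α β M e) := by
  unfold demand; split
  · exact measurableSet_Icc
  · exact measurableSet_Iic

lemma measurableSet_bad (W L N : ℕ) (α β M : ℝ) : MeasurableSet (Bad W L N α β M) := by
  refine Finset.measurableSet_biUnion _ fun j _ => ?_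
  have : {t : Sym2 (ℤ × ℤ) → ℝ | ∀ k ∈ Finset.Ico N (2 * N),
      ¬ GoodWindow t (profile ((2 * N + 1) * (L + 1)) j) W ((k * (L + 1) : ℕ) : ℤ)
        (((k * (L + 1) : ℕ) : ℤ) + L) α β M}
      = ⋂ k ∈ Finset.Ico N (2 * N),
        (rect (windowEdges (profile ((2 * N + 1) * (L + 1)) j) W ((k * (L + 1) : ℕ) : ℤ)
          (((k * (L + 1) : ℕ) : ℤ) + L)) (demand (profile ((2 * N + 1) * (L + 1)) j) W α β M))ᶜ := by
    ext t; simp [rect, GoodWindow]
  rw [this]
  exact Finset.measurableSet_biInter _ fun k _ =>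
    (measurableSet_rect _ (measurable_demand _ W α β M)).compl

lemma card_windowEdges (g : ℤ → ℤ) (W L : ℕ) (X : ℤ) :
    (windowEdges g W X (X + L)).card ≤ ((L + 1) * (2 * W + 4)) ^ 2 := by
  classical
  refine card_image_le.trans ((card_filter_le _ _).trans ?_)
  rw [card_product, sq]
  have h : (window g W X (X + L)).card ≤ (L + 1) * (2 * W + 4) := by
    refine card_biUnion_le.trans ((sum_le_card_nsmul _ _ (2 * W + 4) fun x _ => ?_).trans ?_)
    · exact card_image_le.trans (by rw [Int.card_Icc]; omega)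
    · rw [Int.card_Icc, smul_eq_mul]
      exact le_of_eq (by congr 1; omega)
  exact Nat.mul_le_mul h h

lemma real_bad_le (W L N : ℕ) (α β M η : ℝ) (hη0 : 0 ≤ η) (hη1 : η ≤ 1)
    (hI : η ≤ G.real (Set.Icc β M)) (hL : η ≤ G.real (Set.Iic α)) :
    (weightMeasure G).real (Bad W L N α β M)
      ≤ (2 * ((2 * N + 1) * (L + 1) : ℕ) + 1 : ℝ) * (1 - η ^ (((L + 1) * (2 * W + 4)) ^ 2)) ^ N := by
  haveI : IsProbabilityMeasure (weightMeasure G) := by unfold weightMeasure; infer_instance
  classical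
  refine (measureReal_biUnion_finset_le _ _).trans ((sum_le_card_nsmul _ _
    ((1 - η ^ (((L + 1) * (2 * W + 4)) ^ 2)) ^ N) fun j _ => ?_).trans (le_of_eq ?_))
  · set g := profile ((2 * N + 1) * (L + 1)) j
    set E : ℕ → Finset (Sym2 (ℤ × ℤ)) := fun k =>
      windowEdges g W ((k * (L + 1) : ℕ) : ℤ) (((k * (L + 1) : ℕ) : ℤ) + L)
    have hdis : ((Finset.Ico N (2 * N) : Finset ℕ) : Set ℕ).PairwiseDisjoint E := by
      intro k _ k' _ hne
      refine Finset.disjoint_left.2 fun e he he' => hne ?_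
      simp only [E, windowEdges, mem_image, mem_filter, mem_product] at he he'
      obtain ⟨⟨p, q⟩, ⟨⟨hp, -⟩, -⟩, rfl⟩ := he
      obtain ⟨⟨p', q'⟩, ⟨⟨hp', hq'⟩, -⟩, e⟩ := he'
      have h1 := mem_window.1 hp
      have hb : ((k' * (L + 1) : ℕ) : ℤ) ≤ p.1 ∧ p.1 ≤ ((k' * (L + 1) : ℕ) : ℤ) + L := by
        rcases Sym2.eq_iff.1 e with ⟨rfl, _⟩ | ⟨_, rfl⟩
        · exact ⟨(mem_window.1 hp').1, (mem_window.1 hp').2.1⟩
        · exact ⟨(mem_window.1 hq').1, (mem_window.1 hq').2.1⟩
      push_cast at h1 hb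
      rcases Nat.lt_trichotomy k k' with h | h | h
      · have : ((k : ℤ) + 1) * ((L : ℤ) + 1) ≤ (k' : ℤ) * ((L : ℤ) + 1) :=
          mul_le_mul_of_nonneg_right (by omega) (by positivity)
        linarith
      · exact h
      · have : ((k' : ℤ) + 1) * ((L : ℤ) + 1) ≤ (k : ℤ) * ((L : ℤ) + 1) :=
          mul_le_mul_of_nonneg_right (by omega) (by positivity)
        linarith
    have h := real_avoid G E (fun _ => demand g W α β M) (fun _ => measurable_demand g W α β M)
      (Finset.Ico N (2 * N)) hdis ∅ (fun _ => Set.univ) (fun _ => MeasurableSet.univ) (by simp)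
    rw [prod_empty, one_mul] at h
    refine le_trans (le_trans (le_of_eq ?_) h.le) ?_
    · congr 1
      ext t
      simp [rect, GoodWindow, E, g]
    · have hcard : (Finset.Ico N (2 * N)).card = N := by rw [Nat.card_Ico]; omega
      refine (prod_le_prod ?_ (fun k _ => sub_le_sub_left (show η ^ (((L + 1) * (2 * W + 4)) ^ 2)
          ≤ ∏ e ∈ E k, G.real (demand g W α β M e) from ?_) 1)).trans
        (le_of_eq (by rw [prod_const, hcard]))
      · intro k _
        exact sub_nonneg.2 (prod_le_one (fun _ _ => measureReal_nonneg) fun _ _ => measureReal_le_one)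
      · calc η ^ (((L + 1) * (2 * W + 4)) ^ 2) ≤ η ^ (E k).card :=
              pow_le_pow_of_le_one hη0 hη1 (card_windowEdges g W L _)
          _ = ∏ _e ∈ E k, η := by rw [prod_const]
          _ ≤ _ := prod_le_prod (fun _ _ => hη0) fun e _ => by
              unfold demand; split
              · exact hI
              · exact hL
  · have hc : ((Icc (-(((2 * N + 1) * (L + 1) : ℕ) : ℤ)) (((2 * N + 1) * (L + 1) : ℕ) : ℤ)).card : ℝ)
        = 2 * ((2 * N + 1) * (L + 1) : ℕ) + 1 := by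
      rw [Int.card_Icc]
      have e : ((((2 * N + 1) * (L + 1) : ℕ) : ℤ) + 1 - -(((2 * N + 1) * (L + 1) : ℕ) : ℤ)).toNat
          = 2 * ((2 * N + 1) * (L + 1)) + 1 := by omega
      rw [e]; push_cast; ring
    rw [nsmul_eq_mul, hc]

/-- A lattice isometry. -/
structure LatSym where
  /-- The map. -/
  f : ℤ × ℤ → ℤ × ℤ
  /-- It is an involution. -/
  inv : ∀ p, f (f p) = p
  /-- It preserves neighbours. -/
  nbr : ∀ p q, Nbr p q → Nbr (f p) (f q)

/-- The configuration seen through an isometry. -/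
def LatSym.pull (φ : LatSym) (t : Sym2 (ℤ × ℤ) → ℝ) : Sym2 (ℤ × ℤ) → ℝ := fun e => t (Sym2.map φ.f e)

/-- The involution on pairs. -/
def LatSym.pairEquiv (φ : LatSym) : Sym2 (ℤ × ℤ) ≃ Sym2 (ℤ × ℤ) :=
  ⟨Sym2.map φ.f, Sym2.map φ.f, fun e => by induction e with | h a b => simp [φ.inv],
    fun e => by induction e with | h a b => simp [φ.inv]⟩

lemma measurePreserving_pull (φ : LatSym) :
    MeasurePreserving φ.pull (weightMeasure G) (weightMeasure G) := by
  refine ⟨measurable_pi_lambda _ fun e => measurable_pi_apply _, ?_⟩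
  have h := Measure.infinitePi_map_piCongrLeft (μ := fun _ : Sym2 (ℤ × ℤ) => G) φ.pairEquiv
  unfold weightMeasure
  conv_rhs => rw [← h]
  congr 1
  funext t e
  conv_rhs => rw [← φ.pairEquiv.apply_symm_apply e, MeasurableEquiv.piCongrLeft_apply_apply]
  rfl

lemma costs_pull (φ : LatSym) (t : Sym2 (ℤ × ℤ) → ℝ) (x y : ℤ × ℤ) :
    costs (φ.pull t) x y = costs t (φ.f x) (φ.f y) := by
  ext r
  constructor
  · rintro ⟨m, f, h0, hm, hs, rfl⟩
    exact ⟨m, fun i => φ.f (f i), by simp [h0], by simp [hm], fun i hi => φ.nbr _ _ (hs i hi),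
      sum_congr rfl fun i _ => by simp [LatSym.pull]⟩
  · rintro ⟨m, f, h0, hm, hs, rfl⟩
    exact ⟨m, fun i => φ.f (f i), by simp [h0, φ.inv], by simp [hm, φ.inv],
      fun i hi => φ.nbr _ _ (hs i hi), sum_congr rfl fun i _ => by simp [LatSym.pull, φ.inv]⟩

lemma IsRay.pull {t : Sym2 (ℤ × ℤ) → ℝ} {v : ℕ → ℤ × ℤ} (h : IsRay t v) (φ : LatSym) :
    IsRay (φ.pull t) (fun i => φ.f (v i)) := by
  obtain ⟨h1, h2, h3⟩ := h
  refine ⟨fun i j e => h1 (by simpa [φ.inv] using congrArg φ.f e), fun i => φ.nbr _ _ (h2 i),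
    fun i j hij => ?_⟩
  rw [passage, costs_pull, φ.inv, φ.inv]
  exact (sum_congr rfl fun k _ => by simp [LatSym.pull, φ.inv]).trans (h3 i j hij)

/-- The identity. -/
def symId : LatSym := ⟨id, fun _ => rfl, fun _ _ h => h⟩

/-- Negation of the first coordinate. -/
def symNeg : LatSym where
  f p := (-p.1, p.2)
  inv p := by simp
  nbr p q h := by
    simp only [Nbr] at h ⊢
    rw [show -p.1 - -q.1 = -(p.1 - q.1) by ring, abs_neg]; exact h

/-- Exchange of the coordinates. -/
def symSwap : LatSym where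
  f p := (p.2, p.1)
  inv p := rfl
  nbr p q h := by simp only [Nbr] at h ⊢; linarith

/-- Exchange followed by negation. -/
def symSwapNeg : LatSym where
  f p := (-p.2, -p.1)
  inv p := by simp
  nbr p q h := by
    simp only [Nbr] at h ⊢
    rw [show -p.2 - -q.2 = -(p.2 - q.2) by ring, show -p.1 - -q.1 = -(p.1 - q.1) by ring, abs_neg,
      abs_neg]
    linarith

/-- A strip of slope at most one with the ray running to the right is impossible. -/
lemma no_strip_right {W L : ℕ} {α β M : ℝ} (hα : 0 ≤ α) (hαβ : α ≤ β) (hβM : β ≤ M)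
    (hL : (4 * (W : ℝ) + 4) * M + 2 * W * α < (β - α) * L)
    {t : Sym2 (ℤ × ℤ) → ℝ} (hpos : ∀ e, 0 ≤ t e) (hgoodev : ∀ N₀, ∃ N ≥ N₀, t ∉ Bad W L N α β M)
    {v : ℕ → ℤ × ℤ} (hv : IsRay t v) {s w : ℝ} (hs : |s| ≤ 1) (hw : w + 2 ≤ W)
    (hstrip : ∀ i, |((v i).2 : ℝ) - s * (v i).1| ≤ w) (hup : ∀ X : ℤ, ∃ i, X ≤ (v i).1) :
    False := by
  obtain ⟨N, hN, hnb⟩ := hgoodev (v 0).1.natAbs
  set D := (2 * N + 1) * (L + 1) with hD
  have hD0 : 0 < D := by positivity
  have hDr : (0 : ℝ) < D := Nat.cast_pos.2 hD0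
  set j := ⌊s * D⌋ with hj
  have hjD : -(D : ℤ) ≤ j ∧ j ≤ D := by
    obtain ⟨h1, h2⟩ := abs_le.1 hs
    constructor
    · refine Int.le_floor.2 ?_; push_cast; nlinarith
    · refine Int.floor_le_iff.2 ?_; push_cast; nlinarith
  simp only [Bad, Set.mem_iUnion, not_exists] at hnb
  have := hnb j (mem_Icc.2 hjD)
  simp only [Set.mem_ofPred_eq, not_forall, not_not] at this
  obtain ⟨k, hk, hgood⟩ := this
  rw [Finset.mem_Ico] at hk
  refine no_crossing hpos (profile_ok hD0 (by omega)) hα hαβ hβM hL hgood hv (fun i h1 h2 => ?_)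
    ?_ (hup _)
  · set x := (v i).1 with hx
    set y := (v i).2 with hy
    have hx0 : (0 : ℝ) ≤ x := by
      have : (0 : ℤ) ≤ x := le_trans (Int.natCast_nonneg _) h1
      exact_mod_cast this
    have hxD : (x : ℝ) ≤ D := by
      have h3 : k * (L + 1) + L ≤ D := by
        have : (k + 1) * (L + 1) ≤ (2 * N + 1) * (L + 1) := Nat.mul_le_mul_right _ (by omega)
        rw [hD]; linarith
      have : x ≤ (D : ℤ) := le_trans h2 (by exact_mod_cast h3)
      exact_mod_cast this
    have hfl1 : (j : ℝ) ≤ s * D := Int.floor_le _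
    have hfl2 : s * D < j + 1 := Int.lt_floor_add_one _
    set q := profile D j x with hq
    have hq1 : (D : ℤ) * q ≤ j * x := by
      rw [hq, profile]; exact Int.mul_ediv_self_le (by omega)
    have hq2 : j * x < (D : ℤ) * q + D := by
      rw [hq, profile]; exact Int.lt_mul_ediv_self_add (by omega)
    have hq1' : (D : ℝ) * q ≤ j * x := by exact_mod_cast hq1
    have hq2' : (j : ℝ) * x < D * q + D := by exact_mod_cast hq2
    have a1 : (q : ℝ) ≤ s * x := by
      have : (D : ℝ) * q ≤ D * (s * x) := by nlinarith [mul_le_mul_of_nonneg_right hfl1 hx0]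
      exact le_of_mul_le_mul_left this hDr
    have a2 : s * x - 2 ≤ (q : ℝ) := by
      have : (D : ℝ) * (s * x) ≤ D * (q + 2) := by
        nlinarith [mul_le_mul_of_nonneg_right hfl2.le hx0]
      linarith [le_of_mul_le_mul_left this hDr]
    obtain ⟨b1, b2⟩ := abs_le.1 (hstrip i)
    rw [← hx, ← hy] at b1 b2
    have : |((y - q : ℤ) : ℝ)| ≤ ((W : ℤ) : ℝ) := by
      push_cast; rw [abs_le]; constructor <;> linarith
    rw [inBox]
    exact_mod_cast this
  · have h1 : N * 1 ≤ k * (L + 1) := Nat.mul_le_mul hk.1 (by omega)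
    omega

/-- A nondegenerate law separates two values. -/
lemma exists_levels (h0 : G (Set.Iio 0) = 0) (hnd : ∀ a, G {a} < 1) :
    ∃ α β M : ℝ, 0 ≤ α ∧ α < β ∧ β ≤ M ∧ 0 < G (Set.Iic α) ∧ 0 < G (Set.Icc β M) := by
  obtain ⟨x, hx, y, hy, hxy⟩ : ∃ x ∈ G.support, ∃ y ∈ G.support, x < y := by
    obtain ⟨a, ha⟩ := Measure.nonempty_support (IsProbabilityMeasure.ne_zero G)
    by_contra h
    push Not at h
    have hsub : G.support ⊆ {a} := fun b hb => le_antisymm (h a ha b hb) (h b hb a ha)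
    have : (1 : ENNReal) ≤ G {a} := by
      calc (1 : ENNReal) = G Set.univ := measure_univ.symm
        _ ≤ G {a} + G G.supportᶜ := (measure_mono fun z _ => by
            by_cases hz : z ∈ G.support
            · exact Or.inl (hsub hz)
            · exact Or.inr hz).trans (measure_union_le _ _)
        _ = G {a} := by rw [Measure.measure_compl_support, add_zero]
    exact absurd (hnd a) (not_lt.2 this)
  have pos : ∀ z ∈ G.support, ∀ U : Set ℝ, IsOpen U → z ∈ U → 0 < G U := fun z hz U hU hzU =>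
    (Measure.mem_support_iff_forall z).1 hz U (hU.mem_nhds hzU)
  set δ := (y - x) / 3 with hδ
  have hδ0 : 0 < δ := by rw [hδ]; linarith
  refine ⟨x + δ, y - δ, y + δ, ?_, by linarith, by linarith, ?_, ?_⟩
  · by_contra h
    push Not at h
    have := pos x hx (Set.Iio 0) isOpen_Iio (show x < 0 by linarith)
    simp [h0] at this
  · exact (pos x hx _ isOpen_Iio (show x < x + δ by linarith)).trans_le
      (measure_mono Set.Iio_subset_Iic_self)
  · exact (pos y hy _ isOpen_Ioo ⟨by linarith, by linarith⟩).trans_le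
      (measure_mono Set.Ioo_subset_Icc_self)

/-- Almost surely no ray and no bigeodesic stays in a strip. -/
theorem no_strip_geodesic (h0 : G (Set.Iio 0) = 0) (hnd : ∀ a, G {a} < 1) :
    ∀ᵐ t ∂weightMeasure G,
      (∀ v : ℕ → ℤ × ℤ, IsRay t v → ¬ InStrip v) ∧
        (∀ v : ℤ → ℤ × ℤ, IsBigeodesic t v → ¬ InStrip v) := by
  haveI : IsProbabilityMeasure (weightMeasure G) := by unfold weightMeasure; infer_instance
  obtain ⟨α, β, M, hα, hαβ, hβM, hA, hB⟩ := exists_levels G h0 hnd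
  have hLex : ∀ W : ℕ, ∃ L : ℕ, (4 * (W : ℝ) + 4) * M + 2 * W * α < (β - α) * L := fun W => by
    obtain ⟨L, hL⟩ := exists_nat_gt (((4 * (W : ℝ) + 4) * M + 2 * W * α) / (β - α))
    rw [div_lt_iff₀ (by linarith)] at hL
    exact ⟨L, by linarith⟩
  choose Lof hLof using hLex
  set η := min (G.real (Set.Icc β M)) (G.real (Set.Iic α)) with hη
  have hη0 : 0 < η := lt_min (ENNReal.toReal_pos hB.ne' (measure_ne_top _ _))
    (ENNReal.toReal_pos hA.ne' (measure_ne_top _ _))
  have hη1 : η ≤ 1 := (min_le_left _ _).trans measureReal_le_one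
  have hev : ∀ (φ : LatSym) (W : ℕ), ∀ᵐ t ∂weightMeasure G,
      ∀ N₀, ∃ N ≥ N₀, φ.pull t ∉ Bad W (Lof W) N α β M := by
    intro φ W
    rw [ae_all_iff]
    intro N₀
    rw [ae_iff]
    simp only [not_exists, not_and, not_not]
    set q := 1 - η ^ (((Lof W + 1) * (2 * W + 4)) ^ 2) with hq
    have hq0 : 0 ≤ q := sub_nonneg.2 (pow_le_one₀ hη0.le hη1)
    have hq1 : q < 1 := by rw [hq]; have := pow_pos hη0 (((Lof W + 1) * (2 * W + 4)) ^ 2); linarith
    have hlim : Tendsto (fun N : ℕ => (2 * ((2 * N + 1) * (Lof W + 1) : ℕ) + 1 : ℝ) * q ^ N)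
        atTop (𝓝 0) := by
      have a := tendsto_self_mul_const_pow_of_lt_one hq0 hq1
      have b := tendsto_pow_atTop_nhds_zero_of_lt_one hq0 hq1
      have h := (a.const_mul (4 * ((Lof W : ℝ) + 1))).add (b.const_mul (2 * ((Lof W : ℝ) + 1) + 1))
      rw [mul_zero, mul_zero, add_zero] at h
      refine h.congr fun N => ?_
      push_cast; ring
    have hle : ∀ N, N₀ ≤ N →
        (weightMeasure G).real {t | ∀ x, x ≥ N₀ → φ.pull t ∈ Bad W (Lof W) x α β M}
          ≤ (2 * ((2 * N + 1) * (Lof W + 1) : ℕ) + 1 : ℝ) * q ^ N := by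
      intro N hN
      refine le_trans ?_ (real_bad_le G W (Lof W) N α β M η hη0.le hη1 (min_le_left _ _) (min_le_right _ _))
      have hpre := (measurePreserving_pull G φ).measure_preimage
        (measurableSet_bad W (Lof W) N α β M).nullMeasurableSet
      refine le_trans (measureReal_mono (fun t ht => ht N hN)) (le_of_eq ?_)
      exact congrArg ENNReal.toReal hpre
    have h := ge_of_tendsto hlim (eventually_atTop.2 ⟨N₀, fun N hN => hle N hN⟩)
    exact (measureReal_eq_zero_iff (μ := weightMeasure G)).1 (le_antisymm h measureReal_nonneg)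
  have hposae : ∀ᵐ t ∂weightMeasure G, ∀ e, 0 ≤ t e := by
    rw [ae_all_iff]
    intro e
    have hmp := measurePreserving_eval_infinitePi (fun _ : Sym2 (ℤ × ℤ) => G) e
    have hnn : ∀ᵐ r ∂G, (0 : ℝ) ≤ r := by
      rw [ae_iff]
      convert h0 using 2
      ext r; simp
    exact hmp.quasiMeasurePreserving.ae hnn
  filter_upwards [hposae, ae_all_iff.2 (hev symId), ae_all_iff.2 (hev symNeg),
    ae_all_iff.2 (hev symSwap), ae_all_iff.2 (hev symSwapNeg)] with t hpos e1 e2 e3 e4
  have hray : ∀ v : ℕ → ℤ × ℤ, IsRay t v → ¬ InStrip v := by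
    rintro v hv ⟨a, b, C, hab, hC⟩
    have main : ∀ (φ : LatSym), (∀ W N₀, ∃ N ≥ N₀, φ.pull t ∉ Bad W (Lof W) N α β M) →
        ∀ a' b' : ℝ, |a'| ≤ |b'| → b' ≠ 0 →
          (∀ i, |a' * ((φ.f (v i)).1 : ℝ) + b' * ((φ.f (v i)).2 : ℝ)| ≤ C) →
          (∀ X : ℤ, ∃ i, X ≤ (φ.f (v i)).1) → False := by
      intro φ hφ a' b' hle hb' hstrip hup
      obtain ⟨W, hW⟩ := exists_nat_ge (C / |b'| + 2)
      refine no_strip_right hα hαβ.le hβM (hLof W) (fun e => hpos _) (hφ W) (hv.pull φ)
        (s := -(a' / b')) (w := C / |b'|) ?_ hW (fun i => ?_) hup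
      · rw [abs_neg, abs_div, div_le_one (abs_pos.2 hb')]; exact hle
      · rw [le_div_iff₀ (abs_pos.2 hb'), ← abs_mul]
        refine le_trans (le_of_eq ?_) (hstrip i)
        congr 1
        field_simp
        ring
    have unb : ∀ (c d : ℝ) (P Q : ℕ → ℤ), d ≠ 0 → (∀ i, |c * (P i : ℝ) + d * (Q i : ℝ)| ≤ C) →
        (∀ i j, P i = P j → Q i = Q j → i = j) →
        (∀ X : ℤ, ∃ i, X ≤ P i) ∨ (∀ X : ℤ, ∃ i, P i ≤ X) := by
      intro c d P Q hd hb hinj
      by_contra hno
      push Not at hno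
      obtain ⟨⟨X₁, h1⟩, X₂, h2⟩ := hno
      obtain ⟨B, hB⟩ := exists_nat_ge ((C + |c| * ((|X₁| + |X₂| : ℤ) : ℝ)) / |d|)
      have hfin : (Set.range fun i => (P i, Q i)).Finite := by
        refine ((Finset.Icc X₂ X₁) ×ˢ (Finset.Icc (-(B : ℤ)) B)).finite_toSet.subset ?_
        rintro _ ⟨i, rfl⟩
        have p1 := h1 i
        have p2 := h2 i
        have hP : |(P i : ℝ)| ≤ ((|X₁| + |X₂| : ℤ) : ℝ) := by
          rw [← Int.cast_abs, Int.cast_le]
          rw [abs_le]
          constructor <;> linarith [le_abs_self X₁, neg_abs_le X₁, le_abs_self X₂, neg_abs_le X₂]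
        have hQ : |(Q i : ℝ)| * |d| ≤ C + |c| * ((|X₁| + |X₂| : ℤ) : ℝ) := by
          rw [← abs_mul]
          calc |(Q i : ℝ) * d| = |(c * P i + d * Q i) - c * P i| := by congr 1; ring
            _ ≤ |c * P i + d * Q i| + |c * P i| := abs_sub _ _
            _ ≤ _ := add_le_add (hb i) (by rw [abs_mul]; gcongr)
        rw [← le_div_iff₀ (abs_pos.2 hd)] at hQ
        have hQ' : |Q i| ≤ (B : ℤ) := by
          have := hQ.trans hB
          rw [← Int.cast_abs] at this
          exact_mod_cast this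
        simp only [coe_product, Set.mem_prod, coe_Icc, Set.mem_Icc]
        exact ⟨⟨p2.le, p1.le⟩, abs_le.1 hQ'⟩
      exact Set.infinite_range_of_injective (fun i j e => by
        simp only [Prod.mk.injEq] at e; exact hinj i j e.1 e.2) hfin
    have hinj : ∀ i j, (v i).1 = (v j).1 → (v i).2 = (v j).2 → i = j := fun i j h1 h2 =>
      hv.1 (Prod.ext h1 h2)
    by_cases hle : |a| ≤ |b|
    · have hb0 : b ≠ 0 := fun h => by
        rw [h, abs_zero] at hle
        exact hab (by rw [abs_nonpos_iff.1 hle, h])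
      rcases unb a b (fun i => (v i).1) (fun i => (v i).2) hb0 hC hinj with h | h
      · exact main symId e1 a b hle hb0 hC h
      · refine main symNeg e2 (-a) b (by rwa [abs_neg]) hb0 (fun i => ?_) fun X => ?_
        · simpa [symNeg] using hC i
        · obtain ⟨i, hi⟩ := h (-X)
          exact ⟨i, by simp only [symNeg]; linarith⟩
    · push Not at hle
      have ha0 : a ≠ 0 := fun h => by
        rw [h, abs_zero] at hle
        linarith [abs_nonneg b]
      rcases unb b a (fun i => (v i).2) (fun i => (v i).1) ha0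
          (fun i => by rw [add_comm]; exact hC i) (fun i j h1 h2 => hinj i j h2 h1) with h | h
      · refine main symSwap e3 b a hle.le ha0 (fun i => ?_) fun X => ?_
        · simp only [symSwap]; rw [add_comm]; exact hC i
        · obtain ⟨i, hi⟩ := h X
          exact ⟨i, hi⟩
      · refine main symSwapNeg e4 (-b) (-a) (by rw [abs_neg, abs_neg]; exact hle.le)
          (neg_ne_zero.2 ha0) (fun i => ?_) fun X => ?_
        · simp only [symSwapNeg, Int.cast_neg, neg_mul_neg]; rw [add_comm]; exact hC i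
        · obtain ⟨i, hi⟩ := h (-X)
          exact ⟨i, by simp only [symSwapNeg]; linarith⟩
  refine ⟨hray, fun v ⟨h1, h2, h3⟩ ⟨a, b, C, hab, hC⟩ => hray (fun i : ℕ => v i) ⟨?_, ?_, ?_⟩
    ⟨a, b, C, hab, fun i => hC i⟩⟩
  · exact fun i j e => Int.ofNat_injective (h1 e)
  · intro i; simpa using h2 (i : ℤ)
  · intro i j hij
    rw [← h3 i j (by exact_mod_cast hij)]
    refine Finset.sum_nbij (fun k : ℕ => (k : ℤ)) ?_ ?_ ?_ ?_
    · intro k hk
      simp only [mem_coe, Finset.mem_Ico] at hk ⊢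
      omega
    · exact fun k _ k' _ e => Int.ofNat_injective e
    · intro k hk
      simp only [coe_Ico, Set.mem_Ico] at hk
      exact ⟨k.toNat, by simp only [coe_Ico, Set.mem_Ico]; omega, by simp only; omega⟩
    · intro k _; simp

end Vale.Agent.P158
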