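import Vale.Agent.P158.Peierls

/-!
Deterministic facts used with finite energy: loop erasure, passage times as infima over
self-avoiding paths, and stability of geodesics under lowering their own edges or raising others.
-/

open Finset

namespace Vale.Agent.P158

variable {t t' : Sym2 (ℤ × ℤ) → ℝ}

/-- The edge set of a path. -/
def sapEdges (f : ℕ → ℤ × ℤ) (n : ℕ) : Finset (Sym2 (ℤ × ℤ)) :=
  (range n).image fun i => s(f i, f (i + 1))

/-- Every path contains a self-avoiding one with the same ends. -/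
theorem exists_sap (m : ℕ) : ∀ g : ℕ → ℤ × ℤ, (∀ i < m, Nbr (g i) (g (i + 1))) →
    ∃ n f, IsSAP (g 0) n f ∧ f n = g m ∧ sapEdges f n ⊆ sapEdges g m := by
  induction m using Nat.strong_induction_on with
  | _ m ih =>
    intro g hg
    by_cases hinj : Set.InjOn g (Set.Iic m)
    · exact ⟨m, g, ⟨rfl, hg, hinj⟩, rfl, subset_rfl⟩
    obtain ⟨i, j, hij, hj, he⟩ : ∃ i j, i < j ∧ j ≤ m ∧ g i = g j := by
      simp only [Set.InjOn, Set.mem_Iic, not_forall] at hinj
      obtain ⟨a, ha, b, hb, he, hne⟩ := hinj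
      rcases lt_or_gt_of_ne hne with h | h
      · exact ⟨a, b, h, hb, he⟩
      · exact ⟨b, a, h, ha, he.symm⟩
    set g' : ℕ → ℤ × ℤ := fun k => if k ≤ i then g k else g (k + (j - i)) with hg'
    have hedge : ∀ k < m - (j - i), ∃ k' < m, g' k = g k' ∧ g' (k + 1) = g (k' + 1) := by
      intro k hk
      by_cases h : k < i
      · exact ⟨k, by omega, by simp [g', h.le], by simp [g', show k + 1 ≤ i by omega]⟩
      · refine ⟨k + (j - i), by omega, ?_, ?_⟩
        · by_cases h' : k ≤ i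
          · obtain rfl : k = i := by omega
            simp only [g', le_refl, if_true, show k + (j - k) = j by omega, he]
          · simp [g', h']
        · simp [g', show ¬ k + 1 ≤ i by omega, show k + 1 + (j - i) = k + (j - i) + 1 by omega]
    obtain ⟨n, f, hf, hfe, hsub⟩ := ih (m - (j - i)) (by omega) g' (fun k hk => by
      obtain ⟨k', hk', e1, e2⟩ := hedge k hk
      rw [e1, e2]; exact hg k' hk')
    refine ⟨n, f, by simpa [g'] using hf, hfe.trans ?_, hsub.trans fun e he' => ?_⟩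
    · by_cases h : m - (j - i) ≤ i
      · have : m = j := by omega
        simp only [g', if_pos h]
        rw [show m - (j - i) = i by omega, he, this]
      · simp [g', h, show m - (j - i) + (j - i) = m by omega]
    · obtain ⟨k, hk, rfl⟩ := mem_image.1 he'
      obtain ⟨k', hk', e1, e2⟩ := hedge k (mem_range.1 hk)
      exact mem_image.2 ⟨k', mem_range.2 hk', by rw [e1, e2]⟩

/-- The cost of a self-avoiding path is the sum over its edge set. -/
lemma IsSAP.cost_eq {x : ℤ × ℤ} {n : ℕ} {f : ℕ → ℤ × ℤ} (h : IsSAP x n f)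
    (t : Sym2 (ℤ × ℤ) → ℝ) :
    ∑ i ∈ range n, t s(f i, f (i + 1)) = ∑ e ∈ sapEdges f n, t e := by
  refine (sum_image (s := range n) (g := fun i => s(f i, f (i + 1))) ?_).symm
  intro i hi j hj e
  exact h.edge_injOn (Set.mem_Iio.2 (mem_range.1 hi)) (Set.mem_Iio.2 (mem_range.1 hj)) e

lemma sum_sapEdges_le (hpos : ∀ e, 0 ≤ t e) (g : ℕ → ℤ × ℤ) (m : ℕ) :
    ∑ e ∈ sapEdges g m, t e ≤ ∑ i ∈ range m, t s(g i, g (i + 1)) := by
  classical
  exact sum_image_le_of_nonneg fun u _ => hpos u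

/-- The passage time is at most the cost of any path. -/
lemma passage_le_sum (hpos : ∀ e, 0 ≤ t e) {g : ℕ → ℤ × ℤ} {m : ℕ}
    (hg : ∀ i < m, Nbr (g i) (g (i + 1))) :
    passage t (g 0) (g m) ≤ ∑ i ∈ range m, t s(g i, g (i + 1)) :=
  passage_le hpos ⟨_, ⟨m, g, rfl, rfl, hg, rfl⟩, le_rfl⟩

/-- A self-avoiding path is a geodesic as soon as no self-avoiding path with the same ends is
cheaper. -/
theorem passage_eq_of_sap_le (hpos : ∀ e, 0 ≤ t e) {x : ℤ × ℤ} {n : ℕ} {f : ℕ → ℤ × ℤ}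
    (hf : IsSAP x n f)
    (h : ∀ k g, IsSAP x k g → g k = f n →
      ∑ e ∈ sapEdges f n, t e ≤ ∑ e ∈ sapEdges g k, t e) :
    ∑ i ∈ range n, t s(f i, f (i + 1)) = passage t x (f n) := by
  refine le_antisymm ?_ (by simpa [hf.1] using passage_le_sum hpos hf.2.1)
  refine le_csInf ⟨_, n, f, hf.1, rfl, hf.2.1, rfl⟩ ?_
  rintro r ⟨m, g, hg0, hgm, hg, rfl⟩
  obtain ⟨k, g', hg', hend, hsub⟩ := exists_sap m g hg
  rw [hg0] at hg'
  rw [hf.cost_eq]
  refine (h k g' hg' (hend.trans hgm)).trans ?_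
  exact (sum_le_sum_of_subset_of_nonneg hsub fun e _ _ => hpos e).trans (sum_sapEdges_le hpos g m)

/-- A geodesic stays one when its own edges get cheaper and the other edges dearer. -/
theorem geodesic_of_favourable (hpos : ∀ e, 0 ≤ t e) (hpos' : ∀ e, 0 ≤ t' e) {x : ℤ × ℤ} {n : ℕ}
    {f : ℕ → ℤ × ℤ} (hf : IsSAP x n f)
    (hgeo : ∑ i ∈ range n, t s(f i, f (i + 1)) = passage t x (f n))
    (hdown : ∀ e ∈ sapEdges f n, t' e ≤ t e) (hup : ∀ e ∉ sapEdges f n, t e ≤ t' e) :
    ∑ i ∈ range n, t' s(f i, f (i + 1)) = passage t' x (f n) := by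
  classical
  refine passage_eq_of_sap_le hpos' hf fun k g hg hend => ?_
  set A := sapEdges f n
  set B := sapEdges g k
  have hle : ∑ e ∈ A, t e ≤ ∑ e ∈ B, t e := by
    rw [← hf.cost_eq, ← hg.cost_eq, hgeo, ← hend]
    have := passage_le_sum (t := t) hpos hg.2.1
    rwa [hg.1] at this
  have h2 : ∑ e ∈ B \ A, t e ≤ ∑ e ∈ B \ A, t' e :=
    sum_le_sum fun e he => hup e (mem_sdiff.1 he).2
  have h3 : ∑ e ∈ A \ B, t' e ≤ ∑ e ∈ A \ B, t e :=
    sum_le_sum fun e he => hdown e (mem_sdiff.1 he).1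
  have e1 := sum_inter_add_sum_sdiff A B t
  have e2 := sum_inter_add_sum_sdiff A B t'
  have e3 := sum_inter_add_sum_sdiff B A t
  have e4 := sum_inter_add_sum_sdiff B A t'
  rw [inter_comm B A] at e3 e4
  linarith

end Vale.Agent.P158
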