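import Vale.Agent.P158.Detour

/-!
The Peierls bound: when the law charges no `(-∞, 0]`, long self-avoiding paths are expensive.
-/

open MeasureTheory ProbabilityTheory Finset
open scoped ENNReal

namespace Vale.Agent.P158

/-- A self-avoiding nearest neighbour path of `n` steps from `x`. -/
def IsSAP (x : ℤ × ℤ) (n : ℕ) (f : ℕ → ℤ × ℤ) : Prop :=
  f 0 = x ∧ (∀ i < n, Nbr (f i) (f (i + 1))) ∧ Set.InjOn f (Set.Iic n)

/-- The four steps. -/
def dirVec : Fin 4 → ℤ × ℤ := ![(1, 0), (-1, 0), (0, 1), (0, -1)]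

/-- The path coded by a word of steps. -/
def wordPath (x : ℤ × ℤ) {n : ℕ} (c : Fin n → Fin 4) : ℕ → ℤ × ℤ
  | 0 => x
  | i + 1 => if h : i < n then wordPath x c i + dirVec (c ⟨i, h⟩) else wordPath x c i

lemma Nbr.exists_dir {u v : ℤ × ℤ} (h : Nbr u v) : ∃ j, v = u + dirVec j := by
  obtain ⟨a, b⟩ := u
  obtain ⟨c, d⟩ := v
  unfold Nbr at h
  simp only at h
  rw [Int.abs_eq_natAbs, Int.abs_eq_natAbs] at h
  have h4 : (c = a + 1 ∧ d = b) ∨ (c = a - 1 ∧ d = b) ∨ (c = a ∧ d = b + 1) ∨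
      (c = a ∧ d = b - 1) := by omega
  rcases h4 with ⟨rfl, rfl⟩ | ⟨rfl, rfl⟩ | ⟨rfl, rfl⟩ | ⟨rfl, rfl⟩
  · exact ⟨0, by simp [dirVec]⟩
  · exact ⟨1, by simp [dirVec, sub_eq_add_neg]⟩
  · exact ⟨2, by simp [dirVec]⟩
  · exact ⟨3, by simp [dirVec, sub_eq_add_neg]⟩

lemma exists_word {x : ℤ × ℤ} {n : ℕ} {f : ℕ → ℤ × ℤ} (h : IsSAP x n f) :
    ∃ c : Fin n → Fin 4, ∀ i ≤ n, f i = wordPath x c i := by
  choose c hc using fun i : Fin n => (h.2.1 i i.2).exists_dir
  refine ⟨c, fun i => ?_⟩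
  induction i with
  | zero => exact fun _ => h.1
  | succ i ih =>
    intro hi
    rw [wordPath, dif_pos (show i < n by omega), ← ih (by omega)]
    exact hc ⟨i, by omega⟩

/-- Distinct positions of a self-avoiding path use distinct edges. -/
lemma IsSAP.edge_injOn {x : ℤ × ℤ} {n : ℕ} {f : ℕ → ℤ × ℤ} (h : IsSAP x n f) :
    Set.InjOn (fun i => s(f i, f (i + 1))) (Set.Iio n) := by
  intro i hi j hj he
  simp only [Set.mem_Iio] at hi hj
  rcases Sym2.eq_iff.1 he with ⟨h1, -⟩ | ⟨h1, h2⟩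
  · exact h.2.2 hi.le hj.le h1
  · have e1 := h.2.2 (Set.mem_Iic.2 hi.le) (Set.mem_Iic.2 (show j + 1 ≤ n by omega)) h1
    have e2 := h.2.2 (Set.mem_Iic.2 (show i + 1 ≤ n by omega)) (Set.mem_Iic.2 hj.le) h2
    omega

variable (G : Measure ℝ) [IsProbabilityMeasure G]

lemma exists_small_level (h : G (Set.Iic 0) = 0) {ε : ℝ≥0∞} (hε : 0 < ε) :
    ∃ δ > (0 : ℝ), G (Set.Iic δ) ≤ ε := by
  have hanti : Antitone fun k : ℕ => Set.Iic (1 / ((k : ℝ) + 1)) := fun a b hab =>
    Set.Iic_subset_Iic.2 (one_div_le_one_div_of_le (by positivity) (by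
      exact_mod_cast Nat.succ_le_succ hab))
  have hi : (⋂ k : ℕ, Set.Iic (1 / ((k : ℝ) + 1))) = Set.Iic 0 := by
    ext r
    simp only [Set.mem_iInter, Set.mem_Iic]
    refine ⟨fun hr => ?_, fun hr k => hr.trans (by positivity)⟩
    by_contra h0
    push Not at h0
    obtain ⟨k, hk⟩ := exists_nat_one_div_lt h0
    linarith [hr k]
  have ht := tendsto_measure_iInter_atTop (μ := G) (fun k => measurableSet_Iic.nullMeasurableSet)
    hanti ⟨0, measure_ne_top _ _⟩
  rw [hi, h] at ht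
  obtain ⟨k, hk⟩ := (ht.eventually (eventually_le_nhds hε)).exists
  exact ⟨_, by positivity, hk⟩

/-- Cheap long self-avoiding paths are exponentially unlikely. -/
theorem cheap_paths_le (h : G (Set.Iic 0) = 0) : ∃ a > (0 : ℝ), ∀ (x : ℤ × ℤ) (n : ℕ),
    weightMeasure G {t | ∃ f, IsSAP x n f ∧ ∑ i ∈ range n, t s(f i, f (i + 1)) < a * n}
      ≤ (1 / 2) ^ n := by
  classical
  set q : ℝ≥0∞ := 1 / 16 with hq
  obtain ⟨δ, hδ, hGδ⟩ := exists_small_level G h (ε := q ^ 2) (pos_iff_ne_zero.2 (pow_ne_zero 2 (by simp [q])))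
  refine ⟨δ / 2, half_pos hδ, fun x n => ?_⟩
  set μ := weightMeasure G
  haveI : IsProbabilityMeasure μ := by unfold μ weightMeasure; infer_instance
  set edge : (Fin n → Fin 4) → ℕ → Sym2 (ℤ × ℤ) :=
    fun c i => s(wordPath x c i, wordPath x c (i + 1))
  set words := (univ : Finset (Fin n → Fin 4)).filter
    fun c => Set.InjOn (edge c) (Set.Iio n)
  set many := (range n).powerset.filter fun J => n ≤ 2 * J.card
  have hsub : {t | ∃ f, IsSAP x n f ∧ ∑ i ∈ range n, t s(f i, f (i + 1)) < δ / 2 * n} ⊆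
      ⋃ c ∈ words, ⋃ J ∈ many, {t : Sym2 (ℤ × ℤ) → ℝ | ∀ i ∈ J, t (edge c i) ≤ δ} ∪
        ⋃ i ∈ range n, {t | t (edge c i) ≤ 0} := by
    rintro t ⟨f, hf, hsum⟩
    obtain ⟨c, hc⟩ := exists_word hf
    have hedge : ∀ i < n, s(f i, f (i + 1)) = edge c i := fun i hi => by
      simp only [edge, hc i hi.le, hc (i + 1) hi]
    have hcw : c ∈ words := mem_filter.2 ⟨mem_univ _, fun i hi j hj e => hf.edge_injOn hi hj (by
      simp only [hedge i hi, hedge j hj]; exact e)⟩
    simp only [Set.mem_iUnion, Set.mem_union, Set.mem_ofPred_eq, exists_prop]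
    set J := (range n).filter fun i => t (edge c i) ≤ δ with hJ
    have hmem : ∀ i ∈ J, t (edge c i) ≤ δ := fun i hi => (mem_filter.1 hi).2
    by_cases hneg : ∃ i ∈ range n, t (edge c i) ≤ 0
    · exact ⟨c, hcw, range n, mem_filter.2 ⟨mem_powerset.2 subset_rfl, by simp; omega⟩,
        Or.inr hneg⟩
    push Not at hneg
    refine ⟨c, hcw, J, mem_filter.2 ⟨mem_powerset.2 (filter_subset _ _), ?_⟩, Or.inl hmem⟩
    by_contra hlt
    have h1 : δ * ((range n \ J).card : ℝ) ≤ ∑ i ∈ range n, t s(f i, f (i + 1)) := by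
      rw [mul_comm, ← nsmul_eq_mul]
      refine (card_nsmul_le_sum _ (fun i => t (edge c i)) δ fun i hi => ?_).trans ?_
      · simp only [hJ, mem_sdiff, mem_filter, not_and, not_le] at hi
        exact (hi.2 hi.1).le
      · rw [sum_congr rfl fun i hi => congrArg t (hedge i (mem_range.1 hi))]
        exact sum_le_sum_of_subset_of_nonneg sdiff_subset fun i hi _ => (hneg i hi).le
    rw [card_sdiff_of_subset (filter_subset _ _), card_range] at h1
    have h2 : (n : ℝ) / 2 ≤ ((n - J.card : ℕ) : ℝ) := by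
      rw [Nat.cast_sub ((card_filter_le _ _).trans_eq (card_range n))]
      have : (2 * J.card : ℝ) ≤ n := by exact_mod_cast (show 2 * J.card ≤ n by omega)
      linarith
    have h3 := mul_le_mul_of_nonneg_left h2 hδ.le
    linarith
  refine (measure_mono hsub).trans ((measure_biUnion_finset_le _ _).trans ?_)
  have hword : ∀ c ∈ words, μ (⋃ J ∈ many, {t : Sym2 (ℤ × ℤ) → ℝ | ∀ i ∈ J, t (edge c i) ≤ δ} ∪
      ⋃ i ∈ range n, {t | t (edge c i) ≤ 0}) ≤ 2 ^ n * q ^ n := by
    intro c hc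
    refine (measure_biUnion_finset_le _ _).trans ((sum_le_card_nsmul _ _ (q ^ n) fun J hJ => ?_).trans ?_)
    · obtain ⟨hJn, hJc⟩ := mem_filter.1 hJ
      have hJn' := mem_powerset.1 hJn
      have hz : μ (⋃ i ∈ range n, {t | t (edge c i) ≤ 0}) = 0 := by
        refine (measure_biUnion_null_iff (range n).countable_toSet).2 fun i _ => ?_
        rw [show {t : Sym2 (ℤ × ℤ) → ℝ | t (edge c i) ≤ 0} =
            (fun t => t (edge c i)) ⁻¹' Set.Iic 0 from rfl,
          ← Measure.map_apply (measurable_pi_apply _) measurableSet_Iic]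
        exact (congrArg (fun m => m (Set.Iic 0))
          (Measure.infinitePi_map_eval (μ := fun _ : Sym2 (ℤ × ℤ) => G) _)).trans h
      refine (measure_union_le _ _).trans ?_
      rw [hz, add_zero]
      have hinj : Set.InjOn (edge c) ↑J := fun i hi j hj e =>
        (mem_filter.1 hc).2 (Set.mem_Iio.2 (mem_range.1 (hJn' hi)))
          (Set.mem_Iio.2 (mem_range.1 (hJn' hj))) e
      calc μ {t | ∀ i ∈ J, t (edge c i) ≤ δ}
          = ∏ _e ∈ J.image (edge c), G (Set.Iic δ) := by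
            rw [← Measure.infinitePi_pi (μ := fun _ : Sym2 (ℤ × ℤ) => G)
              (t := fun _ => Set.Iic δ) fun _ _ => measurableSet_Iic]
            congr 1
            ext t
            simp
        _ ≤ q ^ n := by
            rw [prod_const, card_image_of_injOn hinj]
            refine (pow_le_pow_left' hGδ _).trans ?_
            rw [← pow_mul]
            exact pow_le_pow_of_le_one zero_le
              (by simp only [q, one_div]; exact ENNReal.inv_le_one.2 (by norm_num)) hJc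
    · rw [nsmul_eq_mul]
      gcongr
      exact_mod_cast (card_filter_le _ _).trans_eq (by simp)
  refine (sum_le_card_nsmul _ _ _ hword).trans ?_
  rw [nsmul_eq_mul]
  calc (words.card : ℝ≥0∞) * (2 ^ n * q ^ n) ≤ 4 ^ n * (2 ^ n * q ^ n) := by
        gcongr
        exact_mod_cast (card_filter_le _ _).trans_eq (by simp)
    _ = (1 / 2) ^ n := by
        rw [← mul_pow, ← mul_pow]
        congr 1
        rw [hq, show (16 : ℝ≥0∞) = 4 * 2 * 2 by norm_num, one_div, one_div, ← mul_assoc,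
          ENNReal.mul_inv (by simp) (by simp), ← mul_assoc,
          ENNReal.mul_inv_cancel (mul_ne_zero (by simp) (by simp))
            (ENNReal.mul_ne_top (by simp) (by simp)), one_mul]

/-- Almost surely, from every point all long self-avoiding paths have cost linear in their
length. -/
theorem eventually_long_paths (h : G (Set.Iic 0) = 0) : ∃ a > (0 : ℝ), ∀ᵐ t ∂weightMeasure G,
    ∀ x : ℤ × ℤ, ∃ N, ∀ n ≥ N, ∀ f, IsSAP x n f → a * n ≤ ∑ i ∈ range n, t s(f i, f (i + 1)) := by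
  obtain ⟨a, ha, hle⟩ := cheap_paths_le G h
  refine ⟨a, ha, ae_all_iff.2 fun x => ?_⟩
  have hsum : ∑' n, weightMeasure G
      {t | ∃ f, IsSAP x n f ∧ ∑ i ∈ range n, t s(f i, f (i + 1)) < a * n} ≠ ∞ := by
    refine ne_top_of_le_ne_top ?_ (ENNReal.tsum_le_tsum (hle x))
    rw [ENNReal.tsum_geometric, one_div, ENNReal.one_sub_inv_two, inv_inv]
    exact ENNReal.ofNat_ne_top
  filter_upwards [ae_eventually_notMem hsum] with t ht
  obtain ⟨N, hN⟩ := Filter.eventually_atTop.1 ht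
  refine ⟨N, fun n hn f hf => ?_⟩
  by_contra hlt
  exact hN n hn ⟨f, hf, not_le.1 hlt⟩

end Vale.Agent.P158
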