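import Vale.Agent.P158.Geo
import Mathlib.MeasureTheory.Measure.MeasuredSets

/-!
Translations of the weights: invariance of the law, covariance of geodesics, mixing and the
zero-one law for translation invariant events.
-/

open MeasureTheory ProbabilityTheory Finset symmDiff
open scoped ENNReal

namespace Vale.Agent.P158

/-- The weights seen from `v`. -/
def shift (v : ℤ × ℤ) (t : Sym2 (ℤ × ℤ) → ℝ) : Sym2 (ℤ × ℤ) → ℝ :=
  fun e => t (Sym2.map (fun p => p + v) e)

/-- Translation of unordered pairs. -/
def pairShift (v : ℤ × ℤ) : Sym2 (ℤ × ℤ) ≃ Sym2 (ℤ × ℤ) where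
  toFun := Sym2.map fun p => p + v
  invFun := Sym2.map fun p => p + -v
  left_inv e := by induction e with | h a b => simp
  right_inv e := by induction e with | h a b => simp

@[simp] lemma shift_apply (v : ℤ × ℤ) (t : Sym2 (ℤ × ℤ) → ℝ) (a b : ℤ × ℤ) :
    shift v t s(a, b) = t s(a + v, b + v) := rfl

lemma shift_shift (v w : ℤ × ℤ) (t : Sym2 (ℤ × ℤ) → ℝ) :
    shift v (shift w t) = shift (v + w) t := by
  funext e
  induction e with | h a b => simp [add_assoc]

lemma shift_zero (t : Sym2 (ℤ × ℤ) → ℝ) : shift 0 t = t := by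
  funext e
  induction e with | h a b => simp

lemma nbr_add {u w : ℤ × ℤ} (v : ℤ × ℤ) : Nbr (u + v) (w + v) ↔ Nbr u w := by
  simp [Nbr]

variable {t : Sym2 (ℤ × ℤ) → ℝ}

lemma pathCost_shift (v : ℤ × ℤ) (f : ℕ → ℤ × ℤ) (m : ℕ) :
    pathCost (shift v t) f m = pathCost t (fun i => f i + v) m := rfl

lemma costs_shift (v x y : ℤ × ℤ) : costs (shift v t) x y = costs t (x + v) (y + v) := by
  ext r
  constructor
  · rintro ⟨m, f, h0, hm, hs, rfl⟩
    exact ⟨m, fun i => f i + v, by simp [h0], by simp [hm], fun i hi => (nbr_add v).2 (hs i hi),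
      sum_congr rfl fun i _ => rfl⟩
  · rintro ⟨m, f, h0, hm, hs, rfl⟩
    refine ⟨m, fun i => f i - v, by simp [h0], by simp [hm],
      fun i hi => (nbr_add v).1 (by simpa using hs i hi), sum_congr rfl fun i _ => by simp⟩

lemma passage_shift (v x y : ℤ × ℤ) : passage (shift v t) x y = passage t (x + v) (y + v) := by
  rw [passage, passage, costs_shift]

lemma IsBigeodesic.shift {w : ℤ → ℤ × ℤ} (h : IsBigeodesic t w) (v : ℤ × ℤ) :
    IsBigeodesic (shift v t) (fun i => w i - v) := by
  obtain ⟨h1, h2, h3⟩ := h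
  refine ⟨fun i j e => h1 (sub_left_inj.1 e), fun i => (nbr_add v).1 (by simpa using h2 i),
    fun i j hij => ?_⟩
  rw [passage_shift]
  simpa using h3 i j hij

lemma IsRay.shift {w : ℕ → ℤ × ℤ} (h : IsRay t w) (v : ℤ × ℤ) :
    IsRay (shift v t) (fun i => w i - v) := by
  obtain ⟨h1, h2, h3⟩ := h
  refine ⟨fun i j e => h1 (sub_left_inj.1 e), fun i => (nbr_add v).1 (by simpa using h2 i),
    fun i j hij => ?_⟩
  rw [passage_shift]
  simpa using h3 i j hij

lemma exists_bigeodesic_shift (v : ℤ × ℤ) :
    (∃ w, IsBigeodesic (shift v t) w) ↔ ∃ w, IsBigeodesic t w := by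
  refine ⟨fun ⟨w, h⟩ => ⟨fun i => w i - -v, ?_⟩, fun ⟨w, h⟩ => ⟨_, h.shift v⟩⟩
  have := h.shift (-v)
  rwa [shift_shift, neg_add_cancel, shift_zero] at this

variable (G : Measure ℝ) [IsProbabilityMeasure G]

lemma measurable_shift (v : ℤ × ℤ) : Measurable (shift v) :=
  measurable_pi_lambda _ fun _ => measurable_pi_apply _

lemma measurePreserving_shift (v : ℤ × ℤ) :
    MeasurePreserving (shift v) (weightMeasure G) (weightMeasure G) := by
  refine ⟨measurable_shift v, ?_⟩
  have h := Measure.infinitePi_map_piCongrLeft (μ := fun _ : Sym2 (ℤ × ℤ) => G) (pairShift v).symm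
  unfold weightMeasure
  conv_rhs => rw [← h]
  congr 1
  funext t e
  rw [MeasurableEquiv.coe_piCongrLeft]
  obtain ⟨i, rfl⟩ := (pairShift v).symm.surjective e
  rw [Equiv.piCongrLeft_apply_apply]
  exact congrArg t ((pairShift v).apply_symm_apply i)

/-- An event that is almost surely invariant under all translations has probability `0` or `1`. -/
theorem zero_one {A : Set (Sym2 (ℤ × ℤ) → ℝ)} (hA : MeasurableSet A)
    (hinv : ∀ v, shift v ⁻¹' A =ᵐ[weightMeasure G] A) :
    weightMeasure G A = 0 ∨ weightMeasure G A = 1 := by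
  classical
  set P := weightMeasure G
  set p := P.real A
  suffices key : ∀ ε : ℝ, 0 < ε → |p * p - p| ≤ 4 * ε by
    have h0 : p * p - p = 0 := by
      by_contra h
      have hpos : 0 < |p * p - p| := abs_pos.2 h
      linarith [key (|p * p - p| / 8) (by positivity)]
    have h1 : p * (p - 1) = 0 := by linarith
    rcases mul_eq_zero.1 h1 with h | h
    · left
      simpa [p, measureReal_def, ENNReal.toReal_eq_zero_iff, measure_ne_top P A] using h
    · right
      have : p = 1 := by linarith
      simpa [p, measureReal_def, ENNReal.toReal_eq_one_iff] using this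
  intro ε hε
  obtain ⟨B, hB, hBA⟩ := exists_measure_symmDiff_lt_of_generateFrom_isSetRing (μ := P)
    isSetRing_measurableCylinders
    ⟨{Set.univ}, Set.countable_singleton _, Set.singleton_subset_iff.2 (univ_mem_measurableCylinders _), by simp⟩
    generateFrom_measurableCylinders.symm hA (ENNReal.ofReal_pos.2 hε)
  obtain ⟨S, Bs, hBs, rfl⟩ := (mem_measurableCylinders B).1 hB
  -- a translation separating the finite set of pairs
  let ends : Sym2 (ℤ × ℤ) → ℤ := Sym2.lift ⟨fun a b => a.1 + b.1, fun a b => add_comm _ _⟩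
  obtain ⟨c, hc⟩ := Infinite.exists_notMem_finset
    (((S ×ˢ S).image fun q => (ends q.2 - ends q.1) / 2) : Finset ℤ)
  set v : ℤ × ℤ := (c, 0)
  have hdis : Disjoint S (S.image (pairShift v)) := by
    rw [Finset.disjoint_left]
    intro e he he'
    obtain ⟨e0, he0, rfl⟩ := mem_image.1 he'
    refine hc (mem_image.2 ⟨(e0, pairShift v e0), mem_product.2 ⟨he0, he⟩, ?_⟩)
    have : ends (pairShift v e0) = ends e0 + 2 * c := by
      induction e0 with
      | h a b => simp [ends, pairShift, v]; ring
    simp [this]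
  set B : Set (Sym2 (ℤ × ℤ) → ℝ) := cylinder S Bs
  have hBm : MeasurableSet B := .cylinder S hBs
  set C := shift v ⁻¹' B
  have hCm : MeasurableSet C := measurable_shift v hBm
  have hind : P (B ∩ C) = P B * P C := by
    let Φ : ((S.image (pairShift v) : Finset _) → ℝ) → (S → ℝ) :=
      fun w i => w ⟨pairShift v i.1, mem_image_of_mem _ i.2⟩
    have hΦ : Measurable Φ := measurable_pi_lambda _ fun i => measurable_pi_apply _
    have h := ((iIndepFun_weights (G := G)).indepFun_finset S _ hdis measurable_pi_apply).comp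
      measurable_id hΦ
    exact h.measure_inter_preimage_eq_mul Bs Bs hBs hBs
  have hd : P.real (B ∆ A) ≤ ε := ENNReal.toReal_le_of_le_ofReal hε.le hBA.le
  have hCB : P.real C = P.real B := by
    simp only [measureReal_def, C, (measurePreserving_shift G v).measure_preimage
      hBm.nullMeasurableSet, P]
  have hCA : P.real (C ∆ A) ≤ ε := by
    refine le_trans (le_of_eq ?_) hd
    have e : shift v ⁻¹' (B ∆ A) = C ∆ (shift v ⁻¹' A) := rfl
    have h1 : C ∆ A =ᵐ[P] C ∆ (shift v ⁻¹' A) := Filter.EventuallyEq.rfl.symmDiff (hinv v).symm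
    have h2 : P (C ∆ A) = P (B ∆ A) := by
      refine (measure_congr h1).trans ?_
      exact (congrArg P e).symm.trans
        ((measurePreserving_shift G v).measure_preimage (hBm.symmDiff hA).nullMeasurableSet)
    simp only [measureReal_def, h2]
  have hBC : P.real (B ∩ C) = P.real B * P.real B := by
    conv_rhs => arg 2; rw [← hCB]
    simp only [measureReal_def, hind, ENNReal.toReal_mul]
  have h1 : |P.real B - p| ≤ ε :=
    (abs_measureReal_sub_le_measureReal_symmDiff hBm.nullMeasurableSet hA.nullMeasurableSet).trans hd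
  have h2 : |P.real (B ∩ C) - p| ≤ 2 * ε := by
    refine (abs_measureReal_sub_le_measureReal_symmDiff (hBm.inter hCm).nullMeasurableSet
      hA.nullMeasurableSet).trans ?_
    refine ((measureReal_mono ?_).trans (measureReal_union_le (μ := P) (B ∆ A) (C ∆ A))).trans
      (by linarith)
    intro t
    simp only [Set.mem_symmDiff, Set.mem_inter_iff, Set.mem_union]
    tauto
  rw [hBC] at h2
  have hp0 : 0 ≤ p := measureReal_nonneg
  have hp1 : p ≤ 1 := measureReal_le_one
  have hb0 : 0 ≤ P.real B := measureReal_nonneg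
  have hb1 : P.real B ≤ 1 := measureReal_le_one
  rw [abs_le] at h1 h2 ⊢
  constructor <;> nlinarith

end Vale.Agent.P158
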