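import Mathlib

/-!
Resampling finitely many coordinates of an i.i.d. family: finite energy and the zero-one law for
events that ignore finitely many coordinates.
-/

open MeasureTheory ProbabilityTheory Finset
open scoped ENNReal

namespace Vale.Agent.P158

variable {α β : Type*} [DecidableEq α] [MeasurableSpace β] (G : Measure β) [IsProbabilityMeasure G]

/-- The coordinates in `F` are taken from `q.2`, the others from `q.1`. -/
def splice (F : Finset α) (q : (α → β) × (α → β)) : α → β := F.piecewise q.2 q.1

@[simp] lemma splice_mem {F : Finset α} {e : α} (he : e ∈ F) (q : (α → β) × (α → β)) :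
    splice F q e = q.2 e := by simp [splice, he]

@[simp] lemma splice_notMem {F : Finset α} {e : α} (he : e ∉ F) (q : (α → β) × (α → β)) :
    splice F q e = q.1 e := by simp [splice, he]

lemma measurable_splice (F : Finset α) : Measurable (splice (β := β) F) := by
  refine measurable_pi_iff.2 fun e => ?_
  by_cases he : e ∈ F
  · simp only [splice_mem he]; exact (measurable_pi_apply e).comp measurable_snd
  · simp only [splice_notMem he]; exact (measurable_pi_apply e).comp measurable_fst

/-- Resampling a finite set of coordinates preserves the product law. -/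
theorem map_splice (F : Finset α) :
    ((Measure.infinitePi fun _ : α => G).prod (Measure.infinitePi fun _ : α => G)).map (splice F) =
      Measure.infinitePi fun _ : α => G := by
  set μ := Measure.infinitePi fun _ : α => G
  refine Measure.eq_infinitePi _ fun s t ht => ?_
  rw [Measure.map_apply (measurable_splice F) (.pi s.countable_toSet fun e _ => ht e)]
  have : splice F ⁻¹' Set.pi ↑s t = (Set.pi ↑(s \ F) t) ×ˢ (Set.pi ↑(s ∩ F) t) := by
    ext q
    simp only [Set.mem_preimage, Set.mem_pi, Set.mem_prod, coe_sdiff, coe_inter, Set.mem_sdiff,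
      Set.mem_inter_iff, mem_coe]
    constructor
    · exact fun h => ⟨fun e he => by simpa [he.2] using h e he.1,
        fun e he => by simpa [he.2] using h e he.1⟩
    · intro h e he
      by_cases hF : e ∈ F
      · simpa [hF] using h.2 e ⟨he, hF⟩
      · simpa [hF] using h.1 e ⟨he, hF⟩
  rw [this, Measure.prod_prod, Measure.infinitePi_pi _ (fun e _ => ht e),
    Measure.infinitePi_pi _ (fun e _ => ht e), ← prod_union (disjoint_sdiff_inter s F),
    sdiff_union_inter]

/-- Finite energy, quantitative: if every modification on `F` of a point of `A` with values in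
`S e` lies in `B`, then `B` has at least the product probability. No measurability is needed of
`A` and `B`. -/
theorem mul_le_of_modify (F : Finset α) {A B : Set (α → β)} {S : α → Set β}
    (hS : ∀ e ∈ F, MeasurableSet (S e))
    (h : ∀ t ∈ A, ∀ s : α → β, (∀ e ∈ F, s e ∈ S e) → F.piecewise s t ∈ B) :
    (Measure.infinitePi fun _ : α => G) A * ∏ e ∈ F, G (S e) ≤
      (Measure.infinitePi fun _ : α => G) B := by
  set μ := Measure.infinitePi fun _ : α => G
  conv_rhs => rw [show μ = (μ.prod μ).map (splice F) from (map_splice G F).symm]
  refine le_trans ?_ (Measure.le_map_apply (measurable_splice F).aemeasurable B)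
  rw [← Measure.infinitePi_pi (μ := fun _ : α => G) hS, ← Measure.prod_prod]
  exact measure_mono fun q hq => h q.1 hq.1 q.2 fun e he => hq.2 e (mem_coe.2 he)

/-- Finite energy: modified events of positive probability. -/
theorem pos_of_modify (F : Finset α) {A B : Set (α → β)} {S : α → Set β}
    (hS : ∀ e ∈ F, MeasurableSet (S e)) (hS0 : ∀ e ∈ F, 0 < G (S e))
    (hA : 0 < (Measure.infinitePi fun _ : α => G) A)
    (h : ∀ t ∈ A, ∀ s : α → β, (∀ e ∈ F, s e ∈ S e) → F.piecewise s t ∈ B) :
    0 < (Measure.infinitePi fun _ : α => G) B :=
  (ENNReal.mul_pos hA.ne' (CanonicallyOrderedAdd.prod_pos.2 hS0).ne').trans_le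
    (mul_le_of_modify G F hS h)

/-- Finite energy with modifications that may depend on the configuration. -/
theorem pos_of_modify_slices (F : Finset α) {A B : Set (α → β)} (hB : MeasurableSet B)
    (hA : 0 < (Measure.infinitePi fun _ : α => G) A)
    (h : ∀ t ∈ A, 0 < (Measure.infinitePi fun _ : α => G) {s | F.piecewise s t ∈ B}) :
    0 < (Measure.infinitePi fun _ : α => G) B := by
  set μ := Measure.infinitePi fun _ : α => G
  by_contra h0
  rw [not_lt, nonpos_iff_eq_zero] at h0
  have hz : (μ.prod μ) (splice F ⁻¹' B) = 0 := by
    rw [← Measure.map_apply (measurable_splice F) hB, map_splice, h0]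
  have hae := Measure.measure_ae_null_of_prod_null hz
  refine hA.ne' (measure_mono_null (fun t ht => ?_) (ae_iff.1 hae))
  exact (h t ht).ne'

/-- The event does not change when finitely many coordinates change. -/
def FinInsensitive (A : Set (α → β)) : Prop :=
  ∀ (F : Finset α) (t s : α → β), (∀ e ∉ F, t e = s e) → t ∈ A → s ∈ A

/-- An insensitive event is independent of finitely many coordinates, hence trivial. -/
theorem zero_one_of_insensitive {A : Set (α → β)} (hA : MeasurableSet A)
    (hi : FinInsensitive A) :
    (Measure.infinitePi fun _ : α => G) A = 0 ∨ (Measure.infinitePi fun _ : α => G) A = 1 := by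
  set μ := Measure.infinitePi fun _ : α => G
  have key : μ.restrict A = μ A • μ := by
    refine ext_of_generate_finite _
      (generateFrom_squareCylinders (α := fun _ : α => β)).symm
      (isPiSystem_squareCylinders (fun _ => MeasurableSpace.isPiSystem_measurableSet)
        (fun _ => .univ)) ?_ (by simp)
    rintro _ ⟨F, S, hS, rfl⟩
    have hmeas : ∀ e, MeasurableSet (S e) := fun e => by simpa using hS e (Set.mem_univ e)
    rw [Measure.restrict_apply (.pi F.countable_toSet fun e _ => hmeas e), Measure.smul_apply,
      smul_eq_mul]
    conv_lhs => rw [show μ = (μ.prod μ).map (splice F) from (map_splice G F).symm]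
    rw [Measure.map_apply (measurable_splice F)
      ((MeasurableSet.pi F.countable_toSet fun e _ => hmeas e).inter hA),
      show splice F ⁻¹' (Set.pi (↑F) S ∩ A) = A ×ˢ Set.pi (↑F) S from ?_, Measure.prod_prod]
    ext q
    simp only [Set.mem_preimage, Set.mem_inter_iff, Set.mem_prod, Set.mem_pi, mem_coe]
    constructor
    · rintro ⟨h1, h2⟩
      exact ⟨hi F _ q.1 (fun e he => by simp [he]) h2, fun e he => by simpa [he] using h1 e he⟩
    · rintro ⟨h1, h2⟩
      exact ⟨fun e he => by simpa [he] using h2 e he,
        hi F q.1 _ (fun e he => by simp [he]) h1⟩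
  have h2 := congrArg (fun m => m A) key
  simp only [Measure.restrict_apply_self, Measure.smul_apply, smul_eq_mul] at h2
  by_cases h0 : μ A = 0
  · exact Or.inl h0
  · exact Or.inr ((ENNReal.mul_eq_left h0 (measure_ne_top _ _)).1 h2.symm)

end Vale.Agent.P158
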